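import Vale.Agent.P261Z.Loc.Sk

/-!
# P261Z, block LOC: the perfected charts of a blow up
-/

open Polynomial LaurentPolynomial

noncomputable section

namespace P261.Loc

variable {p : ℕ} [Fact p.Prime]

theorem REx.ph {C A₁ A₂ A₃ : Type} [CommRing C] [CommRing A₁] [CommRing A₂] [CommRing A₃] [Pf p C]
    [Ch p A₁] [Ch p A₂] [Ch p A₃] [Algebra C A₁] [Algebra C A₂] [Algebra C A₃] {j₁ : A₁ →ₐ[C] A₃}
    {j₂ : A₂ →ₐ[C] A₃} (h : REx (algebraMap C A₁) (algebraMap C A₂) j₁ j₂) :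
    REx (algebraMap C (PH p A₁)) (algebraMap C (PH p A₂)) (PH.mapA (p := p) j₁) (PH.mapA j₂) where
  comm x := by rw [AlgHom.commutes, AlgHom.commutes]
  surj z := by
    obtain ⟨k, a, e⟩ := PH.exists_pow z
    obtain ⟨y₁, y₂, rfl⟩ := h.surj a
    refine ⟨(rt p _ ^ k) (algebraMap A₁ _ y₁), (rt p _ ^ k) (algebraMap A₂ _ y₂), pow_pp_inj k ?_⟩
    rw [e, sub_pow_pp, ← map_pow (PH.mapA j₁), ← map_pow (PH.mapA j₂), rt_pow_pp, rt_pow_pp,
      PH.mapA_of, PH.mapA_of, map_sub]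
  mid y₁ y₂ hy := by
    obtain ⟨k, a₁, e₁⟩ := PH.exists_pow y₁
    obtain ⟨l, a₂, e₂⟩ := PH.exists_pow y₂
    obtain ⟨N, hN⟩ : IsNilpotent (j₁ (a₁ ^ p ^ l) - j₂ (a₂ ^ p ^ k)) := PH.of_eq_zero.1 (by
      rw [map_sub, ← PH.mapA_of, ← PH.mapA_of, map_pow, map_pow (algebraMap A₂ _), ← e₁, ← e₂,
        ← pow_mul, ← pow_mul, map_pow, map_pow, hy, mul_comm, sub_self])
    obtain ⟨d, hd⟩ := Nat.exists_eq_add_of_le (Nat.lt_pow_self (n := N) (one_lt_p (p := p))).le
    obtain ⟨c, h1, h2⟩ := h.mid ((a₁ ^ p ^ l) ^ p ^ N) ((a₂ ^ p ^ k) ^ p ^ N) (by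
      rw [map_pow, map_pow j₂, ← sub_eq_zero, ← sub_pow_pp, hd, pow_add, hN, zero_mul])
    refine ⟨(rt p C ^ (k + l + N)) c, pow_pp_inj (k + l + N) ?_, pow_pp_inj (k + l + N) ?_⟩
    · rw [← map_pow, rt_pow_pp, PH.algebraMap_eq, h1, map_pow, map_pow, ← e₁, pow_add, pow_add,
        pow_mul, pow_mul]
    · rw [← map_pow, rt_pow_pp, PH.algebraMap_eq, h2, map_pow, map_pow, ← e₂, add_comm k, pow_add,
        pow_add, pow_mul, pow_mul]

section laurent

variable {C : Type} [CommRing C]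

theorem lau_split (h : C[T;T⁻¹]) :
    ∃ f g : C[X], h = toLaurent f + T (-1) * invert (toLaurent g) := by
  induction h using LaurentPolynomial.induction_on' with
  | add _ _ h1 h2 =>
    obtain ⟨f, g, rfl⟩ := h1
    obtain ⟨f', g', rfl⟩ := h2
    exact ⟨f + f', g + g', by simp only [map_add]; ring⟩
  | C_mul_T n a =>
    rcases n with n | n
    · exact ⟨monomial n a, 0, by simp⟩
    · refine ⟨0, monomial n a, ?_⟩
      rw [map_zero, zero_add, toLaurent_C_mul_T, map_mul, invert_C, invert_T, mul_left_comm,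
        ← T_add, Int.negSucc_eq, neg_add, add_comm]

theorem lau_trunc (g : C[X]) : trunc (invert (toLaurent g)) = Polynomial.C (g.coeff 0) := by
  induction g using Polynomial.induction_on' with
  | add _ _ h1 h2 => simp only [map_add, coeff_add, h1, h2]
  | monomial n a =>
    rw [toLaurent_C_mul_T, map_mul, invert_C, invert_T, trunc_C_mul_T]
    rcases n with _ | n
    · simp
    · rw [if_neg (by omega), coeff_monomial, if_neg n.succ_ne_zero, map_zero]

theorem lau_const {f g : C[X]} (h : toLaurent f = invert (toLaurent g)) :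
    ∃ c, f = Polynomial.C c ∧ g = Polynomial.C c := by
  have h1 : f = Polynomial.C (g.coeff 0) := by
    rw [← lau_trunc, ← h, leftInverse_trunc_toLaurent]
  refine ⟨_, h1, toLaurent_injective (invert.injective ?_)⟩
  rw [← h, h1]
  simp

/-- the chart -/
abbrev Ch₁ (a b : C) : Type := C[X] ⧸ Ideal.span {Polynomial.C b * X - Polynomial.C a}

/-- the intersection of the charts -/
abbrev Ch₃ (a b : C) : Type :=
  C[T;T⁻¹] ⧸ Ideal.span {(LaurentPolynomial.C b * T 1 - LaurentPolynomial.C a : C[T;T⁻¹])}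

/-- the first inclusion -/
def jj₁ (a b : C) : Ch₁ a b →ₐ[C] Ch₃ a b :=
  Ideal.quotientMapₐ _ toLaurentAlg ((Ideal.span_singleton_le_iff_mem _).2
    (Ideal.mem_span_singleton'.2 ⟨1, by simp⟩))

/-- the second inclusion -/
def jj₂ (a b : C) : Ch₁ b a →ₐ[C] Ch₃ a b :=
  Ideal.quotientMapₐ _ (invert.toAlgHom.comp toLaurentAlg) ((Ideal.span_singleton_le_iff_mem _).2
    (Ideal.mem_span_singleton'.2 ⟨-T (-1), by
      have : (T (-1) * T 1 : C[T;T⁻¹]) = 1 := by rw [← T_add]; rfl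
      simp only [AlgHom.coe_comp, Function.comp_apply, toLaurentAlg_apply, map_sub, map_mul,
        toLaurent_C, toLaurent_X, AlgEquiv.coe_toAlgHom, invert_C, invert_T]
      linear_combination (-LaurentPolynomial.C b) * this⟩))

theorem rex_chart (a b : C) :
    REx (algebraMap C (Ch₁ a b)) (algebraMap C (Ch₁ b a)) (jj₁ a b) (jj₂ a b) where
  comm x := by rw [AlgHom.commutes, AlgHom.commutes]
  surj z := by
    obtain ⟨z, rfl⟩ := Ideal.Quotient.mk_surjective z
    obtain ⟨f, g, rfl⟩ := lau_split z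
    refine ⟨Ideal.Quotient.mk _ f, Ideal.Quotient.mk _ (-(X * g)), ?_⟩
    show _ = Ideal.Quotient.mk _ (toLaurent f) - Ideal.Quotient.mk _ (invert (toLaurent (-(X * g))))
    rw [← map_sub]
    simp
  mid y₁ y₂ hy := by
    obtain ⟨y₁, rfl⟩ := Ideal.Quotient.mk_surjective y₁
    obtain ⟨y₂, rfl⟩ := Ideal.Quotient.mk_surjective y₂
    obtain ⟨z, hz⟩ := Ideal.mem_span_singleton'.1 (Ideal.Quotient.eq.1
      (show Ideal.Quotient.mk _ (toLaurent y₁) = Ideal.Quotient.mk _ (invert (toLaurent y₂)) from hy))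
    obtain ⟨f, g, rfl⟩ := lau_split z
    obtain ⟨c, h1, h2⟩ := lau_const (f := y₁ - f * (Polynomial.C b * X - Polynomial.C a))
      (g := y₂ - g * (Polynomial.C a * X - Polynomial.C b)) (by
        have : (T (-1) * T 1 : C[T;T⁻¹]) = 1 := by rw [← T_add]; rfl
        simp only [map_sub, map_mul, toLaurent_C, toLaurent_X, invert_C, invert_T]
        linear_combination -hz + invert (toLaurent g) * LaurentPolynomial.C b * this)
    exact ⟨c, Ideal.Quotient.eq.2 (Ideal.mem_span_singleton'.2 ⟨-f, by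
        rw [← Polynomial.C_eq_algebraMap, ← h1]; ring⟩),
      Ideal.Quotient.eq.2 (Ideal.mem_span_singleton'.2 ⟨-g, by
        rw [← Polynomial.C_eq_algebraMap, ← h2]; ring⟩)⟩

theorem chart_eq (a b : C) :
    algebraMap C (Ch₁ a b) a = algebraMap C (Ch₁ a b) b * Ideal.Quotient.mk _ X :=
  (Ideal.Quotient.eq.2 (Ideal.mem_span_singleton'.2 ⟨1, one_mul _⟩)).symm

theorem chart_lift [Ch p C] {F : Type} [CommRing F] [Pf p F] (ψ : C →+* F) {a b : C} (t : F)
    (h : ψ a = ψ b * t) : haveI : Ch p (Ch₁ a b) := Ch.of_hom (algebraMap C _)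
    ∃ g : PH p (Ch₁ a b) →+* F, g.comp (algebraMap C _) = ψ :=
  haveI : Ch p (Ch₁ a b) := Ch.of_hom (algebraMap C _)
  ⟨PH.lift (Ideal.Quotient.lift _ (eval₂RingHom ψ t) fun x hx => by
    obtain ⟨y, rfl⟩ := Ideal.mem_span_singleton'.1 hx
    simp [h]), RingHom.ext fun c => (PH.lift_of _ _).trans (eval₂_C ψ t)⟩

end laurent

theorem blw : BLW p := by
  intro C _ _ a b
  have : Ch p (Ch₁ a b) := Ch.of_hom (algebraMap C _)
  have : Ch p (Ch₁ b a) := Ch.of_hom (algebraMap C _)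
  have : Ch p (Ch₃ a b) := Ch.of_hom (algebraMap C _)
  refine ⟨PH p (Ch₁ a b), PH p (Ch₁ b a), PH p (Ch₃ a b), _, _, _, inferInstance, inferInstance,
    inferInstance, _, _, _, _, _, (rex_chart a b).ph, fun F _ _ ψ => ?_,
    ⟨_, by rw [PH.algebraMap_eq, chart_eq, map_mul]; rfl⟩,
    ⟨_, by rw [PH.algebraMap_eq, chart_eq, map_mul]; rfl⟩⟩
  by_cases hb : ψ b = 0
  · exact .inr (chart_lift ψ 0 (by rw [hb, mul_zero]))
  · exact .inl (chart_lift ψ (ψ a / ψ b) (by rw [mul_div_cancel₀ _ hb]))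

end P261.Loc
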