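import Vale.Agent.P261Z.Loc.Sk

/-!
# P261Z, block LOC: descent along a family of solutions of `t ^ p = t`
-/

open TensorProduct

noncomputable section

namespace P261.Loc

variable {p : ℕ} [hp : Fact p.Prime]

namespace IdmH

variable {B : Type} [CommRing B]

/-- every element of the ideal is fixed by an element of the ideal -/
def Pu (I : Ideal B) : Prop := ∀ b ∈ I, ∃ e ∈ I, (1 - e) * b = 0

theorem Pu.smul {I : Ideal B} (h : Pu I) {M : Type} [AddCommGroup M] [Module B M] {z : M}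
    (hz : z ∈ I • (⊤ : Submodule B M)) : ∃ e ∈ I, (1 - e) • z = 0 := by
  refine Submodule.smul_induction_on hz (fun b hb m _ => ?_) ?_
  · obtain ⟨e, he, h1⟩ := h b hb
    exact ⟨e, he, by rw [smul_smul, h1, zero_smul]⟩
  · rintro x y ⟨e, he, h1⟩ ⟨e', he', h2⟩
    refine ⟨e + e' - e * e', sub_mem (add_mem he he') (I.mul_mem_right _ he), ?_⟩
    have h3 : 1 - (e + e' - e * e') = (1 - e) * (1 - e') := by ring
    rw [h3, smul_add, mul_smul _ _ y, h2, mul_comm, mul_smul, h1, smul_zero, smul_zero, add_zero]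

theorem pu_span {S : Set B} (h : ∀ b ∈ S, ∃ e ∈ Ideal.span S, (1 - e) * b = 0) :
    Pu (Ideal.span S) := fun b hb => by
  refine Submodule.span_induction (p := fun b _ => ∃ e ∈ Ideal.span S, (1 - e) * b = 0) h
    ⟨0, zero_mem _, mul_zero _⟩ ?_ ?_ hb
  · rintro x y _ _ ⟨e, he, h1⟩ ⟨e', he', h2⟩
    refine ⟨e + e' - e * e', sub_mem (add_mem he he') (Ideal.mul_mem_right _ _ he), ?_⟩
    linear_combination (1 - e') * h1 + (1 - e) * h2
  · rintro c x _ ⟨e, he, h1⟩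
    exact ⟨e, he, by rw [smul_eq_mul, mul_left_comm, h1, mul_zero]⟩

theorem Pu.pf [Pf p B] {I : Ideal B} (h : Pu I) : Pf p (B ⧸ I) :=
  Pf.quotient I fun x hx => by
    obtain ⟨e, he, h1⟩ := h _ hx
    have h2 : x * (1 - e) = 0 := mul_eq_zero_of_pow (p := p) (N := p) (by rw [mul_comm, h1])
    have h3 : x = x * e := by linear_combination h2
    rw [h3]
    exact I.mul_mem_left _ he

variable {C₀ : Type} [CommRing C₀] (K : Cx p C₀) [Algebra C₀ B]

omit hp in
theorem ker_mp (I : Ideal B) (n : ℕ) (z : B ⊗[C₀] K.Q n)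
    (hz : K.mp (Ideal.Quotient.mkₐ C₀ I) n z = 0) : z ∈ I • (⊤ : Submodule B (B ⊗[C₀] K.Q n)) := by
  have he : Function.Exact (I.restrictScalars C₀).subtype
      (Ideal.Quotient.mkₐ C₀ I).toLinearMap := fun b =>
    ⟨fun hb => ⟨⟨b, Ideal.Quotient.eq_zero_iff_mem.1 hb⟩, rfl⟩, by
      rintro ⟨c, rfl⟩
      exact Ideal.Quotient.eq_zero_iff_mem.2 c.2⟩
  obtain ⟨y, rfl⟩ := (rTensor_exact (K.Q n) he Ideal.Quotient.mk_surjective z).1 hz
  clear hz
  induction y with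
  | zero => simp
  | tmul b q =>
    have h1 : (I.restrictScalars C₀).subtype.rTensor (K.Q n) (b ⊗ₜ q) =
        (b : B) • ((1 : B) ⊗ₜ[C₀] q) := by
      rw [smul_tmul', smul_eq_mul, mul_one]
      rfl
    rw [h1]
    exact Submodule.smul_mem_smul b.2 trivial
  | add x y hx hy => rw [map_add]; exact add_mem hx hy

theorem quot [Pf p B] (I : Ideal B) [Pf p (B ⧸ I)] {w : B}
    (h : K.AEx (B ⧸ I) (Ideal.Quotient.mk I w)) (n : ℕ) (x : B ⊗[C₀] K.Q n)
    (hx : K.D B n x = 0) (k : ℕ) : ∃ y ∈ K.Bd B n,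
      (rt p B ^ k) w • x - y ∈ I • (⊤ : Submodule B (B ⊗[C₀] K.Q n)) := by
  have h1 := h n (K.mp (Ideal.Quotient.mkₐ C₀ I) n x) (by rw [K.mp_D, hx, map_zero]) k
  rw [← map_rt_pow] at h1
  have h2 : K.mp (Ideal.Quotient.mkₐ C₀ I) n ((rt p B ^ k) w • x) ∈ K.Bd (B ⧸ I) n :=
    (K.mp_smul (Ideal.Quotient.mkₐ C₀ I) n _ x).symm ▸ h1
  generalize (rt p B ^ k) w • x = z at h2 ⊢
  rcases n with _ | n
  · exact ⟨0, zero_mem _, ker_mp K I 0 _ (by rw [sub_zero]; exact (Submodule.mem_bot _).1 h2)⟩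
  · obtain ⟨y, hy⟩ := h2
    obtain ⟨y, rfl⟩ := LinearMap.rTensor_surjective (K.Q n)
      (g := (Ideal.Quotient.mkₐ C₀ I).toLinearMap) Ideal.Quotient.mk_surjective y
    refine ⟨_, ⟨y, rfl⟩, ker_mp K I _ _ ?_⟩
    rw [map_sub, ← K.mp_D, sub_eq_zero]
    exact hy.symm

end IdmH

open IdmH

theorem idm : IDM p := by
  intro C₀ _ _ K C _ _ ι w J t ht h0 h1 B _ _ _ φ hφ n x hx k
  obtain ⟨d, hd⟩ := Nat.exists_eq_add_of_le' hp.out.two_le
  have hc : ∀ I : Ideal B, (RingHom.id _).comp (((Ideal.Quotient.mk I).comp φ).comp ι) =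
      algebraMap C₀ (B ⧸ I) := fun I => by
    rw [RingHom.id_comp, RingHom.comp_assoc, hφ]
    rfl
  have hs : ∀ i, (1 - φ (t i) ^ (d + 1)) * φ (t i) = 0 := fun i => by
    have h2 : φ (t i) ^ (d + 2) = φ (t i) := by rw [← hd, ← map_pow, ht]
    linear_combination -h2
  have hm : ∀ i, φ (t i) • (rt p B ^ k) (φ w) • x ∈ K.Bd B n := fun i => by
    let I : Ideal B := Ideal.span {1 - φ (t i) ^ (d + 1)}
    have hI : Pu I := pu_span fun b hb => ⟨b, Ideal.subset_span hb, by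
      rw [Set.mem_singleton_iff.1 hb]
      linear_combination φ (t i) ^ d * hs i⟩
    have := hI.pf
    have hu : IsUnit (((Ideal.Quotient.mk I).comp φ) (t i)) := by
      refine IsUnit.of_mul_eq_one (Ideal.Quotient.mk I (φ (t i) ^ d)) ?_
      rw [RingHom.comp_apply, ← map_mul, ← pow_succ', eq_comm, ← map_one (Ideal.Quotient.mk I),
        Ideal.Quotient.eq]
      exact Ideal.subset_span rfl
    obtain ⟨y, hy, h2⟩ := quot K I (h1 _ _ i hu (B ⧸ I) (RingHom.id _) (hc I)) n x hx k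
    have h3 : ∀ z ∈ I • (⊤ : Submodule B (B ⊗[C₀] K.Q n)), φ (t i) • z = 0 := fun z hz => by
      refine Submodule.smul_induction_on hz (fun b hb m _ => ?_) fun a b ha hb => ?_
      · obtain ⟨c, rfl⟩ := Ideal.mem_span_singleton'.1 hb
        rw [smul_smul, mul_comm, mul_assoc, hs, mul_zero, zero_smul]
      · rw [smul_add, ha, hb, add_zero]
    have h4 := h3 _ h2
    rw [smul_sub, sub_eq_zero] at h4
    rw [h4]
    exact Submodule.smul_mem _ _ hy
  let I : Ideal B := Ideal.span (Set.range fun i => φ (t i))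
  have hI : Pu I := pu_span (by
    rintro _ ⟨i, rfl⟩
    exact ⟨_, Ideal.pow_mem_of_mem _ (Ideal.subset_span (Set.mem_range_self i)) _ d.succ_pos,
      hs i⟩)
  have := hI.pf
  obtain ⟨y, hy, h2⟩ := quot K I (h0 _ ((Ideal.Quotient.mk I).comp φ) (fun i =>
    Ideal.Quotient.eq_zero_iff_mem.2 (Ideal.subset_span ⟨i, rfl⟩)) (B ⧸ I) (RingHom.id _) (hc I))
    n x hx k
  obtain ⟨e, he, h3⟩ := hI.smul h2
  have h4 : e • (rt p B ^ k) (φ w) • x ∈ K.Bd B n := by
    refine Submodule.span_induction (p := fun e _ => e • (rt p B ^ k) (φ w) • x ∈ K.Bd B n)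
      ?_ ?_ ?_ ?_ he
    · rintro _ ⟨i, rfl⟩
      exact hm i
    · rw [zero_smul]
      exact zero_mem _
    · intro a b _ _ ha hb
      rw [add_smul]
      exact add_mem ha hb
    · intro c a _ ha
      rw [smul_eq_mul, mul_smul]
      exact Submodule.smul_mem _ _ ha
  generalize (rt p B ^ k) (φ w) • x = z at h3 h4 ⊢
  have h5 : z = e • z + (1 - e) • y := by
    rw [smul_sub, sub_eq_zero] at h3
    rw [← h3, ← add_smul, add_sub_cancel, one_smul]
  rw [h5]
  exact add_mem h4 (Submodule.smul_mem _ _ hy)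

end P261.Loc
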