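import Vale.Agent.P261Z.Loc.Sk

/-!
# P261Z, block LOC: descent along a map which is bijective modulo a finitely generated ideal
-/

open TensorProduct

noncomputable section

namespace P261.Loc

variable {p : ℕ} [hp : Fact p.Prime]

namespace IsoAux

omit hp in
/-- maps which kill the ideal extend -/
theorem ext_mod {C D F : Type*} [CommRing C] [CommRing D] [CommRing F] (f : C →+* D) (I : Ideal C)
    (hs : ∀ d, ∃ c, d - f c ∈ I.map f) (hi : ∀ c, f c ∈ I.map f → c ∈ I) (ψ : C →+* F)
    (hψ : ∀ c ∈ I, ψ c = 0) : ∃ G : D →+* F, G.comp f = ψ := by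
  let q : C ⧸ I →+* D ⧸ I.map f := Ideal.quotientMap (I.map f) f Ideal.le_comap_map
  have hq : Function.Bijective q := ⟨Ideal.quotientMap_injective' hi, fun y => by
    obtain ⟨d, rfl⟩ := Ideal.Quotient.mk_surjective y
    obtain ⟨c, hc⟩ := hs d
    exact ⟨Ideal.Quotient.mk I c, (Ideal.Quotient.eq.2 hc).symm⟩⟩
  refine ⟨(Ideal.Quotient.lift I ψ hψ).comp ((RingEquiv.ofBijective q hq).symm.toRingHom.comp
    (Ideal.Quotient.mk _)), RingHom.ext fun c => ?_⟩
  show Ideal.Quotient.lift I ψ hψ ((RingEquiv.ofBijective q hq).symm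
    (RingEquiv.ofBijective q hq (Ideal.Quotient.mk I c))) = ψ c
  rw [RingEquiv.symm_apply_apply, Ideal.Quotient.lift_mk]

section one

variable {C D : Type} [CommRing C] [CommRing D] [Pf p C] [Pf p D] [Algebra C D] {g : C}

omit hp [Pf p C] [Pf p D] in
theorem surN (hs : ∀ d : D, ∃ c e, d = algebraMap C D c + algebraMap C D g * e) (N : ℕ) (d : D) :
    ∃ c e, d = algebraMap C D c + algebraMap C D g ^ N * e := by
  induction N with
  | zero => exact ⟨0, d, by simp⟩
  | succ N ih =>
    obtain ⟨c, e, rfl⟩ := ih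
    obtain ⟨c', e', rfl⟩ := hs e
    exact ⟨c + g ^ N * c', e', by rw [map_add, map_mul, map_pow]; ring⟩

include hp in
theorem injN (hi : ∀ (c : C) (e : D), algebraMap C D c = algebraMap C D g * e → g ∣ c) (N : ℕ)
    (c : C) (e : D) (h : algebraMap C D c = algebraMap C D g ^ N * e) :
    ∃ c', g * (c - g ^ N * c') = 0 := by
  obtain ⟨d, hd⟩ := Nat.exists_eq_add_of_le (Nat.lt_pow_self (n := N) (one_lt_p (p := p))).le
  obtain ⟨c', hc⟩ := hi ((rt p C ^ N) (g ^ d * c)) ((rt p D ^ N) e) (by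
    rw [map_rt_pow, map_mul, map_pow, h, ← mul_assoc, ← pow_add, add_comm d N, ← hd, map_mul,
      rt_pow_pp'])
  have h1 : g ^ d * c = g ^ p ^ N * c' ^ p ^ N := by rw [← mul_pow, ← hc, rt_pow_pp]
  refine ⟨c' ^ p ^ N, mul_eq_zero_of_pow (N := d) ?_⟩
  rw [mul_sub, h1, ← mul_assoc, ← pow_add, add_comm d N, ← hd, sub_self]

include hp in
theorem tors (hs : ∀ d : D, ∃ c e, d = algebraMap C D c + algebraMap C D g * e)
    (hi : ∀ (c : C) (e : D), algebraMap C D c = algebraMap C D g * e → g ∣ c) (y : D)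
    (hy : algebraMap C D g * y = 0) : ∃ t, g * t = 0 ∧ algebraMap C D t = y := by
  obtain ⟨s, e, rfl⟩ := hs y
  obtain ⟨s', h⟩ := injN hi 2 (g * s) (-e) (by rw [map_mul]; linear_combination hy)
  have ht : g * (s - g * s') = 0 := mul_eq_zero_of_pow (N := 2) (by linear_combination h)
  have h1 := congrArg (algebraMap C D) ht
  rw [map_zero, map_mul, map_sub, map_mul] at h1
  have h2 : algebraMap C D g * (algebraMap C D s' + e) = 0 :=
    mul_eq_zero_of_pow (N := 2) (by linear_combination hy - h1)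
  exact ⟨s - g * s', ht, by rw [map_sub, map_mul]; linear_combination -h2⟩

theorem one {C₀ : Type} [CommRing C₀] [Pf p C₀] {K : Cx p C₀} {ι : C₀ →+* C} {w : C}
    (hs : ∀ d : D, ∃ c e, d = algebraMap C D c + algebraMap C D g * e)
    (hi : ∀ (c : C) (e : D), algebraMap C D c = algebraMap C D g * e → g ∣ c)
    (hD : K.St ((algebraMap C D).comp ι) (algebraMap C D w))
    (hU : ∀ (A : Type) [CommRing A] [Pf p A] (f : C →+* A), IsUnit (f g) →
      K.St (f.comp ι) (f w)) : K.St ι w := by
  let C₂ := Localization.Away g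
  let C₃ := Localization.Away (algebraMap C D g)
  have : Pf p C₂ := Pf.loc (Submonoid.powers g) C₂
  have : Pf p C₃ := Pf.loc (Submonoid.powers (algebraMap C D g)) C₃
  have u₂ : IsUnit (algebraMap C C₂ g) := IsLocalization.Away.algebraMap_isUnit g
  have u₃ : IsUnit (algebraMap C C₃ g) := IsLocalization.Away.algebraMap_isUnit (algebraMap C D g)
  let j₁ : D →ₐ[C] C₃ := IsScalarTower.toAlgHom C D C₃
  let j₂ : C₂ →ₐ[C] C₃ :=
    { IsLocalization.Away.lift g u₃ with commutes' := IsLocalization.Away.lift_eq g u₃ }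
  refine Cx.St.mv (j₁ := j₁) (j₂ := j₂) ⟨fun x => ?_, fun z => ?_, fun y₁ y₂ hy => ?_⟩
    (fun F _ _ ψ => ?_) hD (hU C₂ _ u₂)
  · rw [j₁.commutes, j₂.commutes]
  · obtain ⟨N, y, hz⟩ := IsLocalization.Away.surj (algebraMap C D g) z
    obtain ⟨c, e, rfl⟩ := surN hs N y
    obtain ⟨v, hv⟩ := u₂.exists_left_inv
    have hv' := congrArg j₂ hv
    rw [map_mul, j₂.commutes, map_one] at hv'
    refine ⟨e, -(algebraMap C C₂ c * v ^ N), (u₃.pow N).mul_right_cancel ?_⟩
    have h1 : z * algebraMap C C₃ g ^ N =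
        algebraMap C C₃ c + algebraMap C C₃ g ^ N * j₁ e := by
      rw [map_add, map_mul, map_pow] at hz
      exact hz
    rw [h1, map_neg, map_mul, map_pow, j₂.commutes, sub_neg_eq_add, add_mul, mul_assoc, ← mul_pow,
      hv']
    ring
  · obtain ⟨N, z, hz⟩ := IsLocalization.Away.surj g y₂
    have h1 : algebraMap D C₃ (y₁ * algebraMap C D g ^ N) = algebraMap D C₃ (algebraMap C D z) := by
      have := congrArg j₂ hz
      rw [map_mul, map_pow, j₂.commutes, j₂.commutes, ← hy] at this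
      rw [map_mul, map_pow]
      exact this
    obtain ⟨M, hM⟩ := IsLocalization.Away.exists_of_eq (algebraMap C D g) h1
    have h2 : algebraMap C D g * (y₁ * algebraMap C D g ^ N - algebraMap C D z) = 0 :=
      mul_eq_zero_of_pow (N := M) (by rw [mul_sub, hM, sub_self])
    obtain ⟨x, hx⟩ := injN hi (N + 1) (g * z) y₁ (by rw [map_mul]; linear_combination -h2)
    have h3 := congrArg (algebraMap C D) hx
    rw [map_zero, map_mul, map_sub, map_mul, map_mul, map_pow] at h3
    obtain ⟨t, ht, e⟩ := tors hs hi (y₁ - algebraMap C D x) (mul_eq_zero_of_pow (N := N + 2)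
      (by linear_combination algebraMap C D g * h2 + h3))
    refine ⟨x + t, by rw [map_add, e]; ring, (u₂.pow (N + 2)).mul_right_cancel ?_⟩
    have h4 := congrArg (algebraMap C C₂) hx
    have h5 := congrArg (algebraMap C C₂) ht
    rw [map_zero, map_mul, map_sub, map_mul, map_mul, map_pow] at h4
    rw [map_zero, map_mul] at h5
    rw [map_add]
    linear_combination algebraMap C C₂ g ^ (N + 1) * h5 - h4 - algebraMap C C₂ g ^ 2 * hz
  · by_cases h0 : ψ g = 0
    · have e : (Ideal.span {g}).map (algebraMap C D) = Ideal.span {algebraMap C D g} := by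
        rw [Ideal.map_span, Set.image_singleton]
      refine Or.inl (ext_mod _ (Ideal.span {g}) (fun d => ?_) (fun c hc => ?_) ψ fun c hc => ?_)
      · obtain ⟨c, e', rfl⟩ := hs d
        exact ⟨c, by rw [e, Ideal.mem_span_singleton]; exact ⟨e', by ring⟩⟩
      · rw [e, Ideal.mem_span_singleton] at hc
        obtain ⟨e', he⟩ := hc
        exact Ideal.mem_span_singleton.2 (hi c e' he)
      · obtain ⟨c', rfl⟩ := Ideal.mem_span_singleton.1 hc
        rw [map_mul, h0, zero_mul]
    · exact Or.inr ⟨IsLocalization.Away.lift g (Ne.isUnit h0),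
        IsLocalization.Away.lift_comp g _⟩

end one

variable {C₀ : Type} [CommRing C₀] [Pf p C₀] {K : Cx p C₀}

omit [Pf p C₀] in
theorem triv {B : Type} [CommRing B] [Subsingleton B] (ι : C₀ →+* B) (w : B) : K.St ι w := by
  intro B' _ _ _ φ _ n x _ k
  have : Subsingleton B' := subsingleton_of_zero_eq_one (by
    rw [← map_one φ, ← map_zero φ, Subsingleton.elim (0 : B) 1])
  have : Subsingleton (B' ⊗[C₀] K.Q n) := Module.subsingleton B' _
  rw [Subsingleton.elim (_ • x) 0]
  exact zero_mem _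

/-- one may assume that one element divides all the others -/
theorem maxd (h : BLW p) {J : Type} (s : Finset J) : ∀ (C : Type) [CommRing C] [Pf p C]
    (ι : C₀ →+* C) (w : C) (g : J → C) (a : C), (∀ (A : Type) [CommRing A] [Pf p A] (f : C →+* A)
      (b : C), (b = a ∨ ∃ i ∈ s, b = g i) → f b ∣ f a → (∀ i ∈ s, f b ∣ f (g i)) →
      K.St (f.comp ι) (f w)) → K.St ι w := by
  classical
  induction s using Finset.induction_on with
  | empty => exact fun C _ _ ι w g a H => H C (RingHom.id C) a (Or.inl rfl) dvd_rfl (by simp)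
  | insert j s _ ih =>
    intro C _ _ ι w g a H
    obtain ⟨C₁, C₂, C₃, _, _, _, _, _, _, _, _, _, j₁, j₂, hr, hl, ⟨t₁, h₁⟩, t₂, h₂⟩ := h C a (g j)
    refine Cx.St.mv hr hl (ih C₁ _ _ (fun i => algebraMap C C₁ (g i)) (algebraMap C C₁ (g j)) ?_)
      (ih C₂ _ _ (fun i => algebraMap C C₂ (g i)) (algebraMap C C₂ a) ?_)
    · intro A _ _ f b hb d₁ d₂
      obtain ⟨c, hc, rfl⟩ : ∃ b', (∃ i ∈ insert j s, b' = g i) ∧ b = algebraMap C C₁ b' := by
        rcases hb with rfl | ⟨i, hi, rfl⟩
        · exact ⟨_, ⟨j, Finset.mem_insert_self _ _, rfl⟩, rfl⟩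
        · exact ⟨_, ⟨i, Finset.mem_insert_of_mem hi, rfl⟩, rfl⟩
      exact H A (f.comp (algebraMap C C₁)) c (Or.inr hc) (d₁.trans (map_dvd f ⟨t₁, h₁⟩))
        (Finset.forall_mem_insert _ _ _ |>.2 ⟨d₁, d₂⟩)
    · intro A _ _ f b hb d₁ d₂
      obtain ⟨c, hc, rfl⟩ : ∃ b', (b' = a ∨ ∃ i ∈ insert j s, b' = g i) ∧
          b = algebraMap C C₂ b' := by
        rcases hb with rfl | ⟨i, hi, rfl⟩
        · exact ⟨_, Or.inl rfl, rfl⟩
        · exact ⟨_, Or.inr ⟨i, Finset.mem_insert_of_mem hi, rfl⟩, rfl⟩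
      exact H A (f.comp (algebraMap C C₂)) c hc d₁
        (Finset.forall_mem_insert _ _ _ |>.2 ⟨d₁.trans (map_dvd f ⟨t₂, h₂⟩), d₂⟩)

/-- base change to a ring in which the ideal is contained in a principal one -/
theorem base {C D A : Type} [CommRing C] [CommRing D] [CommRing A] [Pf p C] [Pf p D] [Pf p A]
    [Algebra C D] [Algebra C A] {ι : C₀ →+* C} {w : C} (I : Ideal C)
    (hs : ∀ d, ∃ c, d - algebraMap C D c ∈ I.map (algebraMap C D))
    (hi : ∀ c, algebraMap C D c ∈ I.map (algebraMap C D) → c ∈ I)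
    (hD : K.St ((algebraMap C D).comp ι) (algebraMap C D w)) (a : A)
    (ha : ∀ c ∈ I, a ∣ algebraMap C A c)
    (hU : ∀ (A' : Type) [CommRing A'] [Pf p A'] (f : A →+* A'), IsUnit (f a) →
      K.St (f.comp ((algebraMap C A).comp ι)) (f (algebraMap C A w))) :
    K.St ((algebraMap C A).comp ι) (algebraMap C A w) := by
  let r : D →ₐ[C] A ⊗[C] D := Algebra.TensorProduct.includeRight
  refine one (D := A ⊗[C] D) (g := a) (fun x => ?_) (fun c e he => ?_) ?_ hU
  · induction x with
    | zero => exact ⟨0, 0, by simp⟩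
    | add x y hx hy =>
      obtain ⟨c, e, rfl⟩ := hx
      obtain ⟨c', e', rfl⟩ := hy
      exact ⟨c + c', e + e', by rw [map_add]; ring⟩
    | tmul x d =>
      obtain ⟨c, hc⟩ := hs d
      have hle : I.map (algebraMap C D) ≤
          (Ideal.span {algebraMap A (A ⊗[C] D) a}).comap r.toRingHom :=
        Ideal.map_le_iff_le_comap.2 fun y hy => by
          show r (algebraMap C D y) ∈ Ideal.span {algebraMap A (A ⊗[C] D) a}
          rw [r.commutes, Ideal.mem_span_singleton, IsScalarTower.algebraMap_apply C A]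
          exact map_dvd _ (ha y hy)
      obtain ⟨e, he⟩ := Ideal.mem_span_singleton.1 (Ideal.mem_comap.1 (hle hc))
      have he' : r d - algebraMap A (A ⊗[C] D) (algebraMap C A c) =
          algebraMap A (A ⊗[C] D) a * e := by
        rw [← he, ← IsScalarTower.algebraMap_apply, ← r.commutes, ← map_sub]
        rfl
      have h1 : x ⊗ₜ[C] d = algebraMap A (A ⊗[C] D) x * r d := by
        show _ = (x ⊗ₜ[C] 1) * ((1 : A) ⊗ₜ[C] d)
        rw [Algebra.TensorProduct.tmul_mul_tmul, mul_one, one_mul]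
      exact ⟨x * algebraMap C A c, algebraMap A _ x * e, by
        rw [h1, map_mul]; linear_combination algebraMap A (A ⊗[C] D) x * he'⟩
  · obtain ⟨G, hG⟩ := ext_mod _ I hs hi (algebraMap C (A ⧸ Ideal.span {a})) fun c hc =>
      Ideal.Quotient.eq_zero_iff_mem.2 (Ideal.mem_span_singleton.2 (ha c hc))
    let G' : D →ₐ[C] A ⧸ Ideal.span {a} := { G with commutes' := DFunLike.congr_fun hG }
    let L := Algebra.TensorProduct.lift (Ideal.Quotient.mkₐ C (Ideal.span {a})) G'
      fun _ _ => Commute.all _ _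
    have hL : ∀ x, L (algebraMap A _ x) = Ideal.Quotient.mk (Ideal.span {a}) x := fun x => by
      show Ideal.Quotient.mk (Ideal.span {a}) x * G 1 = _
      rw [map_one, mul_one]
    have h1 := congrArg L he
    rw [map_mul, hL, hL, Ideal.Quotient.eq_zero_iff_mem.2 (Ideal.mem_span_singleton_self a),
      zero_mul, Ideal.Quotient.eq_zero_iff_mem] at h1
    exact Ideal.mem_span_singleton.1 h1
  · have e : r.toRingHom.comp (algebraMap C D) =
        (algebraMap A (A ⊗[C] D)).comp (algebraMap C A) :=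
      r.comp_algebraMap.trans (IsScalarTower.algebraMap_eq C A _)
    have := hD.mono r.toRingHom
    rwa [← RingHom.comp_assoc, ← RingHom.comp_apply, e] at this

end IsoAux

open IsoAux

theorem iso_of (h : BLW p) : ISO p := by
  intro C₀ _ _ K C D _ _ _ _ _ ι w J _ g hs hi hD hU
  have := Fintype.ofFinite J
  refine maxd h Finset.univ C ι w g 0 fun A _ _ f b hb _ hd => ?_
  let : Algebra C A := f.toAlgebra
  refine base (A := A) _ hs hi hD (f b) (fun c hc => ?_) fun A' _ _ f' hu => ?_
  · have hle : Ideal.span (Set.range g) ≤ (Ideal.span {f b}).comap f :=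
      Ideal.span_le.2 (by
        rintro _ ⟨i, rfl⟩
        exact Ideal.mem_span_singleton.2 (hd i (Finset.mem_univ i)))
    exact Ideal.mem_span_singleton.1 (Ideal.mem_comap.1 (hle hc))
  · rcases hb with rfl | ⟨i, -, rfl⟩
    · rw [map_zero, map_zero, isUnit_zero_iff] at hu
      have := subsingleton_of_zero_eq_one hu
      exact triv _ _
    · exact hU A' (f'.comp f) i hu

end P261.Loc
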