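import Vale.Agent.P261Z.Loc.Sk

/-!
# P261Z, block LOC: almost isomorphisms are almost pure, perfect hulls of pure algebras are pure
-/

open TensorProduct Filter

noncomputable section

namespace P261.Loc

variable {p : ℕ} [hp : Fact p.Prime]

theorem alm : ALM p := by
  intro C A _ _ _ _ w h1 h2 M _ _ x hx k
  obtain ⟨c, hc⟩ := rt_split (p := p) w k
  generalize he : (rt p C ^ (k + 1)) w = e at hc
  have h3 : ∀ c c' : C, algebraMap C A c = algebraMap C A c' → e * c = e * c' := fun c c' h => by
    rw [← sub_eq_zero, ← mul_sub, ← he]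
    exact h1 _ _ (by rw [map_sub, h, sub_self])
  have h4 := h2 (k + 1)
  rw [he] at h4
  choose s hs using h4
  let ψ : A →ₗ[C] C :=
    { toFun := fun a => e * s a
      map_add' := fun a b => by
        rw [← mul_add]
        exact h3 _ _ (by rw [map_add, ← hs, ← hs, ← hs, mul_add])
      map_smul' := fun c a => by
        rw [RingHom.id_apply, smul_eq_mul, mul_left_comm c e]
        exact h3 _ _ (by rw [map_mul, ← hs, ← hs, Algebra.smul_def, mul_left_comm]) }
  have h5 : ψ 1 = e * e := h3 _ _ (by rw [← hs, mul_one])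
  have h6 := congrArg (fun t => TensorProduct.lid C M (ψ.rTensor M t)) hx
  simp only [LinearMap.rTensor_tmul, lid_tmul, map_zero, h5] at h6
  rw [hc, mul_smul, h6, smul_zero]

/-- a module with the action twisted by a root -/
def Tw (_ : ℕ) (_ : ℕ) (M : Type) : Type := M

instance (k : ℕ) (M : Type) [AddCommGroup M] : AddCommGroup (Tw p k M) :=
  inferInstanceAs (AddCommGroup M)

instance (k : ℕ) (C M : Type) [CommRing C] [Pf p C] [AddCommGroup M] [Module C M] :
    Module C (Tw p k M) := Module.compHom M (rt p C ^ k)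

/-- the identity map -/
def Tw.of (p k : ℕ) {M : Type} [AddCommGroup M] : M →+ Tw p k M := AddMonoidHom.id M

theorem Tw.smul_of (k : ℕ) {C M : Type} [CommRing C] [Pf p C] [AddCommGroup M] [Module C M]
    (c : C) (m : M) : c ^ p ^ k • Tw.of p k m = Tw.of p k (c • m) := by
  show (rt p C ^ k) (c ^ p ^ k) • m = c • m
  rw [rt_pow_pp']

section

variable {C D : Type} [CommRing C] [CommRing D] [Pf p C] [Ch p D] [Algebra C D]

variable (p C D) in
/-- the presentation of the perfect hull -/
def prs : ((ℕ × D) →₀ C) →ₗ[C] PH p D := Finsupp.linearCombination C fun i => PH.mk p i.1 i.2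

variable (p C D) in
/-- the approximation of level `k` -/
def lev (k : ℕ) : ((ℕ × D) →₀ C) →+ D :=
  Finsupp.liftAddHom fun i => (AddMonoidHom.mulRight (i.2 ^ p ^ (k - i.1))).comp
    ((algebraMap C D).comp (fr p C ^ k)).toAddMonoidHom

omit [Ch p D] in
theorem lev_single (k : ℕ) (i : ℕ × D) (c : C) :
    lev p C D k (Finsupp.single i c) = algebraMap C D (c ^ p ^ k) * i.2 ^ p ^ (k - i.1) := by
  rw [lev, Finsupp.liftAddHom_apply_single, ← fr_pow_apply k c]
  rfl

omit [Ch p D] in
theorem lev_smul (k : ℕ) (c : C) (f : (ℕ × D) →₀ C) :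
    lev p C D k (c • f) = c ^ p ^ k • lev p C D k f := by
  induction f using Finsupp.induction_linear with
  | zero => rw [smul_zero, map_zero, smul_zero]
  | add f g hf hg => rw [smul_add, map_add, map_add, hf, hg, smul_add]
  | single i a =>
    rw [Finsupp.smul_single, lev_single, lev_single, smul_eq_mul, mul_pow, map_mul,
      Algebra.smul_def, mul_assoc]

theorem lev_ev (f : (ℕ × D) →₀ C) : ∀ᶠ k in atTop, PH.mk p k (lev p C D k f) = prs p C D f ∧
    ∀ l, lev p C D (k + l) f = lev p C D k f ^ p ^ l := by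
  induction f using Finsupp.induction_linear with
  | zero =>
    refine Eventually.of_forall fun k => ⟨by rw [map_zero, map_zero, map_zero], fun l => ?_⟩
    rw [map_zero, map_zero, zero_pow (pow_ne_zero _ hp.out.ne_zero)]
  | add f g hf hg =>
    filter_upwards [hf, hg] with k h1 h2
    exact ⟨by rw [map_add, map_add, map_add, h1.1, h2.1], fun l => by
      rw [map_add, map_add, h1.2, h2.2, add_pow_pp]⟩
  | single i c =>
    filter_upwards [eventually_ge_atTop i.1] with k hk
    obtain ⟨d, rfl⟩ := Nat.exists_eq_add_of_le hk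
    refine ⟨?_, fun l => ?_⟩
    · rw [lev_single, Nat.add_sub_cancel_left, map_mul, PH.mk_pow, prs,
        Finsupp.linearCombination_single, Algebra.smul_def, PH.algebraMap_eq, PH.of_eq,
        ← PH.mk_pow 0 (i.1 + d), Nat.zero_add, map_pow]
    · rw [lev_single, lev_single, add_assoc, Nat.add_sub_cancel_left, Nat.add_sub_cancel_left,
        mul_pow, ← map_pow, ← pow_mul, ← pow_mul, ← pow_add, ← pow_add, add_assoc]

theorem lev_zero {f : (ℕ × D) →₀ C} (h : prs p C D f = 0) : ∀ᶠ k in atTop, lev p C D k f = 0 := by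
  obtain ⟨k, h1, h2⟩ := (lev_ev (p := p) f).exists
  obtain ⟨N, hN⟩ := PH.mk_eq_zero.1 (h1.trans h)
  filter_upwards [eventually_ge_atTop (k + N)] with j hj
  obtain ⟨d, rfl⟩ := Nat.exists_eq_add_of_le hj
  rw [add_assoc, h2]
  exact pow_eq_zero_of_le ((Nat.le_add_right N d).trans (Nat.lt_pow_self one_lt_p).le) hN

omit [Pf p C] in
theorem prs_surj : Function.Surjective (prs p C D) := fun y => by
  obtain ⟨i, a, rfl⟩ := PH.exists_mk y
  exact ⟨Finsupp.single (i, a) 1, by rw [prs, Finsupp.linearCombination_single, one_smul]⟩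

variable (p C D) in
/-- the approximation of level `k` on tensor products -/
def levT (M : Type) [AddCommGroup M] [Module C M] (k : ℕ) :
    ((ℕ × D) →₀ C) ⊗[C] M →+ D ⊗[C] Tw p k M :=
  TensorProduct.liftAddHom
    (AddMonoidHom.mk' (fun f => AddMonoidHom.mk'
      (fun m : M => lev p C D k f ⊗ₜ[C] Tw.of p k m)
      fun m m' => by rw [map_add, TensorProduct.tmul_add])
      fun f f' => AddMonoidHom.ext fun m => by
        simp only [map_add, TensorProduct.add_tmul, AddMonoidHom.mk'_apply,
          AddMonoidHom.add_apply])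
    fun c f m => by
      simp only [AddMonoidHom.mk'_apply]
      rw [lev_smul, TensorProduct.smul_tmul, Tw.smul_of]

theorem levT_tmul {M : Type} [AddCommGroup M] [Module C M] (k : ℕ) (f : (ℕ × D) →₀ C) (m : M) :
    levT p C D M k (f ⊗ₜ m) = lev p C D k f ⊗ₜ[C] Tw.of p k m := rfl

end

theorem php : PHP p := by
  intro C D _ _ _ _ _ h M _ _ x hx
  have h1 : (prs p C D).rTensor M (Finsupp.single (0, 1) 1 ⊗ₜ x) = 0 := by
    rw [LinearMap.rTensor_tmul, prs, Finsupp.linearCombination_single, one_smul, map_one, hx]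
  obtain ⟨t, ht⟩ := (rTensor_exact (M := LinearMap.ker (prs p C D)) (N := (ℕ × D) →₀ C) M
    (LinearMap.exact_subtype_ker_map (prs p C D)) prs_surj _).1 h1
  have h2 : ∀ t : LinearMap.ker (prs p C D) ⊗[C] M, ∀ᶠ k in atTop,
      levT p C D M k ((LinearMap.ker (prs p C D)).subtype.rTensor M t) = 0 := fun t => by
    induction t with
    | zero => exact Eventually.of_forall fun k => by rw [map_zero, map_zero]
    | tmul f m =>
      filter_upwards [lev_zero (p := p) f.2] with k hk
      rw [LinearMap.rTensor_tmul, levT_tmul, Submodule.subtype_apply, hk, zero_tmul]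
    | add s t hs ht =>
      filter_upwards [hs, ht] with k h1 h2
      rw [map_add, map_add, h1, h2, add_zero]
  obtain ⟨k, hk⟩ := (h2 t).exists
  rw [ht, levT_tmul, lev_single, one_pow, one_pow, map_one, one_mul] at hk
  exact h (Tw p k M) (Tw.of p k x) hk

end P261.Loc
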