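import Vale.Agent.P261Z.Loc.Mv

/-!
# P261Z, block LOC: statements of the algebraic descent rules
-/

open TensorProduct

noncomputable section

namespace P261.Loc

variable (p : ℕ) [Fact p.Prime]

/-- the two perfected charts of the blow up of `(a, b)` -/
def BLW : Prop := ∀ (C : Type) [CommRing C] [Pf p C] (a b : C),
  ∃ (C₁ C₂ C₃ : Type) (_ : CommRing C₁) (_ : CommRing C₂) (_ : CommRing C₃) (_ : Pf p C₁)
    (_ : Pf p C₂) (_ : Pf p C₃) (_ : Algebra C C₁) (_ : Algebra C C₂) (_ : Algebra C C₃)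
    (j₁ : C₁ →ₐ[C] C₃) (j₂ : C₂ →ₐ[C] C₃), REx (algebraMap C C₁) (algebraMap C C₂) j₁ j₂ ∧
    Lifts p (algebraMap C C₁) (algebraMap C C₂) ∧
    (∃ t, algebraMap C C₁ a = algebraMap C C₁ b * t) ∧
    ∃ t, algebraMap C C₂ b = algebraMap C C₂ a * t

/-- descent along a map which is bijective modulo a finitely generated ideal -/
def ISO : Prop := ∀ (C₀ : Type) [CommRing C₀] [Pf p C₀] (K : Cx p C₀) (C D : Type) [CommRing C]
  [CommRing D] [Pf p C] [Pf p D] [Algebra C D] (ι : C₀ →+* C) (w : C) (J : Type) [Finite J]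
  (g : J → C),
  (∀ d : D, ∃ c : C, d - algebraMap C D c ∈ (Ideal.span (Set.range g)).map (algebraMap C D)) →
  (∀ c : C, algebraMap C D c ∈ (Ideal.span (Set.range g)).map (algebraMap C D) →
    c ∈ Ideal.span (Set.range g)) →
  K.St ((algebraMap C D).comp ι) (algebraMap C D w) →
  (∀ (A : Type) [CommRing A] [Pf p A] (f : C →+* A) (i : J), IsUnit (f (g i)) →
    K.St (f.comp ι) (f w)) → K.St ι w

/-- the perfect hull of a pure algebra is pure -/
def PHP : Prop := ∀ (C D : Type) [CommRing C] [CommRing D] [Pf p C] [Ch p D] [Algebra C D],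
  (∀ (M : Type) [AddCommGroup M] [Module C M] (x : M), (1 : D) ⊗ₜ[C] x = 0 → x = 0) →
  ∀ (M : Type) [AddCommGroup M] [Module C M] (x : M), (1 : PH p D) ⊗ₜ[C] x = 0 → x = 0

/-- almost isomorphisms are almost pure -/
def ALM : Prop := ∀ (C A : Type) [CommRing C] [CommRing A] [Pf p C] [Algebra C A] (w : C),
  (∀ (k : ℕ) (c : C), algebraMap C A c = 0 → (rt p C ^ k) w * c = 0) →
  (∀ (k : ℕ) (a : A), ∃ c : C, algebraMap C A ((rt p C ^ k) w) * a = algebraMap C A c) →
  APure p w A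

/-- descent along a family of solutions of `t ^ p = t` -/
def IDM : Prop := ∀ (C₀ : Type) [CommRing C₀] [Pf p C₀] (K : Cx p C₀) (C : Type) [CommRing C]
  [Pf p C] (ι : C₀ →+* C) (w : C) (J : Type) (t : J → C), (∀ i, t i ^ p = t i) →
  (∀ (A : Type) [CommRing A] [Pf p A] (f : C →+* A), (∀ i, f (t i) = 0) →
    K.St (f.comp ι) (f w)) →
  (∀ (A : Type) [CommRing A] [Pf p A] (f : C →+* A) (i : J), IsUnit (f (t i)) →
    K.St (f.comp ι) (f w)) → K.St ι w

end P261.Loc
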