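import Vale.Agent.P261Z.W.Hull

/-!
# P261Z, block B: almost exact complexes over perfect rings and their descent

* `Cx p C₀`: complexes of `C₀`-modules whose terms are perfect `C₀`-algebras;
* `Cx.AEx K B w`: `B ⊗ K` is exact up to all the roots of `w`;
* `Cx.St K ι w`: `AEx` after every perfect base change;
* `St.pure`, `St.mv`: descent along almost pure maps and along Mayer-Vietoris squares.
-/

open TensorProduct

noncomputable section

namespace P261.Loc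

universe u

variable {p : ℕ} [hp : Fact p.Prime]

/-- a root of `w` is divisible by every small power of the next roots -/
theorem rt_split {B : Type*} [CommRing B] [Pf p B] (w : B) (k : ℕ) :
    ∃ c, (rt p B ^ k) w = c * ((rt p B ^ (k + 1)) w * (rt p B ^ (k + 1)) w) := by
  obtain ⟨d, hd⟩ := Nat.exists_eq_add_of_le hp.out.two_le
  refine ⟨(rt p B ^ (k + 1)) w ^ d, ?_⟩
  have h : (rt p B ^ (k + 1)) w ^ p = (rt p B ^ k) w := by
    rw [pow_succ', RingHom.mul_def, RingHom.comp_apply, rt_pow]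
  rw [← h]
  generalize (rt p B ^ (k + 1)) w = e
  rw [hd]
  ring

/-- complexes of modules whose terms are perfect algebras -/
structure Cx (p : ℕ) (C₀ : Type u) [CommRing C₀] : Type (u + 1) where
  /-- the terms -/
  Q : ℕ → Type u
  [cr : ∀ n, CommRing (Q n)]
  [al : ∀ n, Algebra C₀ (Q n)]
  [pf : ∀ n, Pf p (Q n)]
  /-- the differential -/
  d : ∀ n, Q n →ₗ[C₀] Q (n + 1)
  dd : ∀ n x, d (n + 1) (d n x) = 0

attribute [instance] Cx.cr Cx.al Cx.pf

variable {C₀ : Type u} [CommRing C₀] (K : Cx p C₀)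

namespace Cx

section

variable (B : Type u) [CommRing B] [Algebra C₀ B]

/-- the differential after base change -/
def D (n : ℕ) : B ⊗[C₀] K.Q n →ₗ[B] B ⊗[C₀] K.Q (n + 1) := (K.d n).baseChange B

omit hp in
theorem D_tmul (n : ℕ) (b : B) (q : K.Q n) : K.D B n (b ⊗ₜ q) = b ⊗ₜ K.d n q := rfl

omit hp in
theorem DD (n : ℕ) (x : B ⊗[C₀] K.Q n) : K.D B (n + 1) (K.D B n x) = 0 := by
  induction x with
  | zero => simp
  | tmul b q => rw [D_tmul, D_tmul, K.dd, tmul_zero]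
  | add x y hx hy => rw [map_add, map_add, hx, hy, add_zero]

/-- the boundaries -/
def Bd : ∀ n, Submodule B (B ⊗[C₀] K.Q n)
  | 0 => ⊥
  | n + 1 => LinearMap.range (K.D B n)

omit hp in
theorem D_bd : ∀ (n : ℕ) (x : B ⊗[C₀] K.Q n), x ∈ K.Bd B n → K.D B n x = 0
  | 0, x, h => by rw [(Submodule.mem_bot B).1 h, map_zero]
  | n + 1, _, ⟨y, rfl⟩ => K.DD B n y

/-- exact up to the roots of `w` -/
def AEx [Pf p B] (w : B) : Prop :=
  ∀ (n : ℕ) (x : B ⊗[C₀] K.Q n), K.D B n x = 0 → ∀ k, (rt p B ^ k) w • x ∈ K.Bd B n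

end

section

variable {B B' : Type u} [CommRing B] [Algebra C₀ B] [CommRing B'] [Algebra C₀ B']

/-- change of the base -/
def mp (φ : B →ₐ[C₀] B') (n : ℕ) : B ⊗[C₀] K.Q n →ₗ[C₀] B' ⊗[C₀] K.Q n :=
  φ.toLinearMap.rTensor (K.Q n)

omit hp in
theorem mp_tmul (φ : B →ₐ[C₀] B') (n : ℕ) (b : B) (q : K.Q n) :
    K.mp φ n (b ⊗ₜ q) = φ b ⊗ₜ q := rfl

omit hp in
theorem mp_D (φ : B →ₐ[C₀] B') (n : ℕ) (x : B ⊗[C₀] K.Q n) :
    K.D B' n (K.mp φ n x) = K.mp φ (n + 1) (K.D B n x) := by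
  induction x with
  | zero => simp
  | tmul b q => rfl
  | add x y hx hy => simp only [map_add, hx, hy]

omit hp in
theorem mp_smul (φ : B →ₐ[C₀] B') (n : ℕ) (b : B) (x : B ⊗[C₀] K.Q n) :
    K.mp φ n (b • x) = φ b • K.mp φ n x := by
  induction x with
  | zero => simp
  | tmul a q => rw [smul_tmul', mp_tmul, mp_tmul, smul_tmul', smul_eq_mul, smul_eq_mul, map_mul]
  | add x y hx hy => simp only [smul_add, map_add, hx, hy]

omit hp in
theorem mp_mp {B'' : Type u} [CommRing B''] [Algebra C₀ B''] (φ : B →ₐ[C₀] B')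
    (ψ : B' →ₐ[C₀] B'') (n : ℕ) (x : B ⊗[C₀] K.Q n) :
    K.mp ψ n (K.mp φ n x) = K.mp (ψ.comp φ) n x := by
  induction x with
  | zero => simp
  | tmul a q => rfl
  | add x y hx hy => simp only [map_add, hx, hy]

omit hp in
theorem mp_bd (φ : B →ₐ[C₀] B') : ∀ (n : ℕ) (x : B ⊗[C₀] K.Q n), x ∈ K.Bd B n →
    K.mp φ n x ∈ K.Bd B' n
  | 0, x, h => by rw [(Submodule.mem_bot B).1 h, map_zero]; exact zero_mem _
  | n + 1, _, ⟨y, rfl⟩ => ⟨K.mp φ n y, K.mp_D φ n y⟩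

end

/-- almost exact after every perfect base change -/
def St {B : Type u} [CommRing B] (ι : C₀ →+* B) (w : B) : Prop :=
  ∀ (B' : Type u) [CommRing B'] [Pf p B'] [Algebra C₀ B'] (φ : B →+* B'),
    φ.comp ι = algebraMap C₀ B' → K.AEx B' (φ w)

variable {K}

theorem St.mono {B A : Type u} [CommRing B] [CommRing A] {ι : C₀ →+* B} {w : B}
    (h : K.St ι w) (f : B →+* A) : K.St (f.comp ι) (f w) :=
  fun B' _ _ _ φ hφ => h B' (φ.comp f) hφ

theorem AEx.dvd {B : Type u} [CommRing B] [Algebra C₀ B] [Pf p B] {s w : B} (h : K.AEx B s)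
    {N : ℕ} (hs : s ∣ w ^ N) : K.AEx B w := fun n x hx k => by
  obtain ⟨c, hc⟩ := hs
  obtain ⟨e, he⟩ := Nat.exists_eq_add_of_le (Nat.lt_pow_self (n := N) (one_lt_p (p := p))).le
  have h1 : (rt p B ^ k) w = (rt p B ^ (N + k)) (c * w ^ e) * (rt p B ^ (N + k)) s := by
    rw [← map_mul, show c * w ^ e * s = w ^ p ^ N by rw [he, pow_add, hc]; ring,
      add_comm N k, pow_add, RingHom.mul_def, RingHom.comp_apply, rt_pow_pp']
  rw [h1, mul_smul]
  exact Submodule.smul_mem _ _ (h n x hx _)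

theorem St.dvd {B : Type u} [CommRing B] {ι : C₀ →+* B} {s w : B} (h : K.St ι s) {N : ℕ}
    (hs : s ∣ w ^ N) : K.St ι w := fun B' _ _ _ φ hφ =>
  (h B' φ hφ).dvd (N := N) (by rw [← map_pow]; exact map_dvd φ hs)

end Cx

/-! ### almost pure maps -/

/-- `C → A` is pure up to the roots of `w` -/
def APure (p : ℕ) [Fact p.Prime] {C : Type u} [CommRing C] [Pf p C] (w : C) (A : Type u)
    [CommRing A] [Algebra C A] : Prop :=
  ∀ (M : Type u) [AddCommGroup M] [Module C M] (x : M), (1 : A) ⊗ₜ[C] x = 0 →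
    ∀ k, (rt p C ^ k) w • x = 0

theorem aex_pure {C A B : Type u} [CommRing C] [CommRing A] [CommRing B] [Pf p C] [Pf p B]
    [Algebra C₀ C] [Algebra C A] [Algebra C₀ A] [IsScalarTower C₀ C A] [Algebra C B]
    [Algebra C₀ B] [IsScalarTower C₀ C B] [Pf p (A ⊗[C] B)] {w : C} (hA : APure p w A)
    (h : K.AEx (A ⊗[C] B) (algebraMap C _ w)) : K.AEx B (algebraMap C B w) := by
  intro n x hx k
  let i : B →ₐ[C₀] A ⊗[C] B :=
    (Algebra.TensorProduct.includeRight (R := C) (A := A) (B := B)).restrictScalars C₀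
  have hi : ∀ c, i (algebraMap C B c) = algebraMap C _ c := fun c =>
    (Algebra.TensorProduct.includeRight (R := C) (A := A) (B := B)).commutes c
  let N : Submodule C (B ⊗[C₀] K.Q n) := (K.Bd B n).restrictScalars C
  let Θ : ∀ m, (A ⊗[C] B) ⊗[C₀] K.Q m →ₗ[C] A ⊗[C] (B ⊗[C₀] K.Q m) := fun m =>
    (AlgebraTensorModule.assoc C₀ C C A B (K.Q m)).toLinearMap
  have hΘ : ∀ m y, Θ m (K.mp i m y) = (1 : A) ⊗ₜ[C] y := fun m y => by
    induction y with
    | zero => simp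
    | tmul b q => rfl
    | add x y hx hy => simp only [map_add, hx, hy, tmul_add]
  have hbd : ∀ y ∈ K.Bd (A ⊗[C] B) n, N.mkQ.lTensor A (Θ n y) = 0 := by
    rcases n with _ | n
    · intro y hy
      rw [(Submodule.mem_bot _).1 hy, map_zero, map_zero]
    · rintro _ ⟨y, rfl⟩
      induction y with
      | zero => simp
      | add x y hx hy => simp only [map_add, hx, hy, add_zero]
      | tmul z q =>
        induction z with
        | zero => simp
        | add x y hx hy => simp only [add_tmul, map_add, hx, hy, add_zero]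
        | tmul a b =>
          show a ⊗ₜ[C] N.mkQ (b ⊗ₜ[C₀] K.d n q) = 0
          rw [show N.mkQ (b ⊗ₜ[C₀] K.d n q) = 0 from
            (Submodule.Quotient.mk_eq_zero N).2 ⟨b ⊗ₜ q, rfl⟩, tmul_zero]
  have h1 := h n (K.mp i n x) (by rw [K.mp_D, hx, map_zero]) (k + 1)
  rw [← hi, ← show i _ = (rt p _ ^ (k + 1)) (i _) from map_rt_pow i.toRingHom _ _] at h1
  have h2 := hbd _ ((K.mp_smul i n _ x).symm ▸ h1)
  rw [hΘ, LinearMap.lTensor_tmul] at h2
  have h3 := hA _ _ h2 (k + 1)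
  rw [← map_smul, Submodule.mkQ_apply, Submodule.Quotient.mk_eq_zero] at h3
  obtain ⟨c, hc⟩ := rt_split (p := p) (algebraMap C B w) k
  rw [hc, mul_smul, mul_smul]
  refine Submodule.smul_mem _ _ ?_
  rw [← map_rt_pow, algebraMap_smul, map_rt_pow]
  exact h3

variable {K}

/-- descent along almost pure maps of perfect rings -/
theorem _root_.P261.Loc.Cx.St.pure [Pf p C₀] {C A : Type u} [CommRing C] [CommRing A] [Pf p C]
    [Pf p A] [Algebra C A] {ι : C₀ →+* C} {w : C} (hA : APure p w A)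
    (h : K.St ((algebraMap C A).comp ι) (algebraMap C A w)) : K.St ι w := by
  intro B _ _ _ φ hφ
  let : Algebra C₀ C := ι.toAlgebra
  let : Algebra C₀ A := ((algebraMap C A).comp ι).toAlgebra
  have : IsScalarTower C₀ C A := IsScalarTower.of_algebraMap_eq' rfl
  let : Algebra C B := φ.toAlgebra
  have : IsScalarTower C₀ C B := IsScalarTower.of_algebraMap_eq' hφ.symm
  exact aex_pure K hA (h (A ⊗[C] B) Algebra.TensorProduct.includeLeftRingHom rfl)

/-! ### Mayer-Vietoris squares -/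

/-- `A → A₁ × A₂ → A₁₂ → 0` is exact -/
structure REx {A A₁ A₂ A₃ : Type*} [AddCommGroup A₃] (i₁ : A → A₁) (i₂ : A → A₂) (j₁ : A₁ → A₃)
    (j₂ : A₂ → A₃) : Prop where
  comm : ∀ x, j₁ (i₁ x) = j₂ (i₂ x)
  surj : ∀ z, ∃ y₁ y₂, z = j₁ y₁ - j₂ y₂
  mid : ∀ y₁ y₂, j₁ y₁ = j₂ y₂ → ∃ x, i₁ x = y₁ ∧ i₂ x = y₂

omit hp in
theorem REx.rTensor {R A A₁ A₂ A₃ : Type*} [CommRing R] [AddCommGroup A] [AddCommGroup A₁]
    [AddCommGroup A₂] [AddCommGroup A₃] [Module R A] [Module R A₁] [Module R A₂] [Module R A₃]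
    {i₁ : A →ₗ[R] A₁} {i₂ : A →ₗ[R] A₂} {j₁ : A₁ →ₗ[R] A₃} {j₂ : A₂ →ₗ[R] A₃}
    (h : REx i₁ i₂ j₁ j₂) (Q : Type*) [AddCommGroup Q] [Module R Q] :
    REx (i₁.rTensor Q) (i₂.rTensor Q) (j₁.rTensor Q) (j₂.rTensor Q) := by
  have he : Function.Exact (i₁.prod i₂) (j₁.coprod (-j₂)) := fun y => by
    rw [LinearMap.coprod_apply, LinearMap.neg_apply, ← sub_eq_add_neg, sub_eq_zero]
    refine ⟨fun hy => ?_, ?_⟩
    · obtain ⟨x, h1, h2⟩ := h.mid _ _ hy
      exact ⟨x, Prod.ext h1 h2⟩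
    · rintro ⟨x, rfl⟩
      exact h.comm x
  have hs : Function.Surjective (j₁.coprod (-j₂)) := fun z => by
    obtain ⟨y₁, y₂, rfl⟩ := h.surj z
    exact ⟨(y₁, y₂), (sub_eq_add_neg _ _).symm⟩
  let e := TensorProduct.prodLeft R R A₁ A₂ Q
  have e1 : ∀ t, (j₁.coprod (-j₂)).rTensor Q t = j₁.rTensor Q (e t).1 - j₂.rTensor Q (e t).2 :=
    fun t => by
    induction t with
    | zero => simp
    | tmul y q =>
      show (j₁ y.1 + -j₂ y.2) ⊗ₜ[R] q = j₁ y.1 ⊗ₜ[R] q - j₂ y.2 ⊗ₜ[R] q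
      rw [← sub_eq_add_neg, sub_tmul]
    | add x y hx hy => simp only [map_add, hx, hy, Prod.fst_add, Prod.snd_add]; abel
  have e2 : ∀ t, e ((i₁.prod i₂).rTensor Q t) = (i₁.rTensor Q t, i₂.rTensor Q t) := fun t => by
    induction t with
    | zero => simp only [map_zero]; rfl
    | tmul y q => rfl
    | add x y hx hy => simp only [map_add, hx, hy, Prod.mk_add_mk]
  refine ⟨fun x => ?_, fun z => ?_, fun y₁ y₂ hy => ?_⟩
  · have := (rTensor_exact Q he hs).apply_apply_eq_zero x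
    rwa [e1, e2, sub_eq_zero] at this
  · obtain ⟨t, rfl⟩ := LinearMap.rTensor_surjective Q hs z
    exact ⟨_, _, e1 t⟩
  · obtain ⟨x, hx⟩ := (rTensor_exact Q he hs (e.symm (y₁, y₂))).1
      (by rw [e1, e.apply_symm_apply, sub_eq_zero]; exact hy)
    have := e2 x
    rw [hx, e.apply_symm_apply] at this
    exact ⟨x, (congrArg Prod.fst this).symm, (congrArg Prod.snd this).symm⟩

/-- every point with values in a perfect field lifts to one of the two rings -/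
def Lifts (p : ℕ) {A A₁ A₂ : Type u} [CommRing A] [CommRing A₁] [CommRing A₂] (i₁ : A →+* A₁)
    (i₂ : A →+* A₂) : Prop :=
  ∀ (F : Type u) [Field F] [Pf p F] (ψ : A →+* F),
    (∃ g : A₁ →+* F, g.comp i₁ = ψ) ∨ ∃ g : A₂ →+* F, g.comp i₂ = ψ

/-- points with values in perfect fields separate the elements of a perfect ring -/
theorem eq_zero_of_pts {A : Type u} [CommRing A] [Pf p A] (x : A)
    (h : ∀ (F : Type u) [Field F] [Pf p F] (ψ : A →+* F), ψ x = 0) : x = 0 := by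
  have hn : IsNilpotent x := nilpotent_iff_mem_prime.2 fun J hJ => by
    have : Pf p (A ⧸ J) := Pf.quotient J fun y hy => hJ.mem_of_pow_mem p hy
    have : Pf p (FractionRing (A ⧸ J)) := Pf.loc (nonZeroDivisors (A ⧸ J)) _
    have h1 := h (FractionRing (A ⧸ J)) ((algebraMap (A ⧸ J) _).comp (Ideal.Quotient.mk J))
    rwa [RingHom.comp_apply, IsFractionRing.to_map_eq_zero_iff, Ideal.Quotient.eq_zero_iff_mem]
      at h1
  obtain ⟨N, hN⟩ := hn
  exact eq_zero_of_pow hN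

omit hp in
/-- a point of `B ⊗ Q` extends along an extension of its restriction to `B` -/
theorem ext_pt {R B B₁ Q F : Type u} [CommRing R] [CommRing B] [CommRing B₁] [CommRing Q]
    [CommRing F] [Algebra R B] [Algebra R B₁] [Algebra R Q] (i : B →ₐ[R] B₁)
    (ψ : B ⊗[R] Q →+* F) (g : B₁ →+* F)
    (hg : g.comp i.toRingHom = ψ.comp Algebra.TensorProduct.includeLeftRingHom) :
    ∃ G : B₁ ⊗[R] Q →+* F, (∀ x, G (i.toLinearMap.rTensor Q x) = ψ x) ∧
      (∀ q, G (1 ⊗ₜ q) = ψ (1 ⊗ₜ q)) := by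
  let : Algebra R F := (ψ.comp (algebraMap R _)).toAlgebra
  let g' : B₁ →ₐ[R] F :=
    { g with
      commutes' := fun r => by
        rw [← i.commutes r]
        exact congrArg (fun f : B →+* F => f (algebraMap R B r)) hg }
  let ψ' : B ⊗[R] Q →ₐ[R] F := { ψ with commutes' := fun _ => rfl }
  let G := Algebra.TensorProduct.lift g' (ψ'.comp Algebra.TensorProduct.includeRight)
    fun _ _ => Commute.all _ _
  refine ⟨G.toRingHom, fun x => ?_, fun q => ?_⟩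
  · induction x with
    | zero => simp
    | tmul b q =>
      show g (i b) * ψ (1 ⊗ₜ q) = ψ (b ⊗ₜ q)
      rw [show g (i b) = ψ (b ⊗ₜ 1) from congrArg (fun f : B →+* F => f b) hg, ← map_mul,
        Algebra.TensorProduct.tmul_mul_tmul, mul_one, one_mul]
    | add x y hx hy => rw [map_add, map_add, map_add, hx, hy]
  · show g 1 * ψ (1 ⊗ₜ q) = _
    rw [map_one, one_mul]

variable (K) in
theorem aex_mv [Pf p C₀] {B B₁ B₂ B₃ : Type u} [CommRing B] [CommRing B₁] [CommRing B₂]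
    [CommRing B₃] [Pf p B] [Pf p B₁] [Pf p B₂] [Pf p B₃] [Algebra C₀ B] [Algebra C₀ B₁]
    [Algebra C₀ B₂] [Algebra C₀ B₃] (i₁ : B →ₐ[C₀] B₁) (i₂ : B →ₐ[C₀] B₂) (j₁ : B₁ →ₐ[C₀] B₃)
    (j₂ : B₂ →ₐ[C₀] B₃) (hr : REx i₁ i₂ j₁ j₂) (hl : Lifts p i₁.toRingHom i₂.toRingHom) {w : B}
    (h₁ : K.AEx B₁ (i₁ w)) (h₂ : K.AEx B₂ (i₂ w)) (h₃ : K.AEx B₃ (j₁ (i₁ w))) : K.AEx B w := by
  have hR : ∀ n, REx (K.mp i₁ n) (K.mp i₂ n) (K.mp j₁ n) (K.mp j₂ n) := fun n =>
    REx.rTensor (i₁ := i₁.toLinearMap) (i₂ := i₂.toLinearMap) (j₁ := j₁.toLinearMap)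
      (j₂ := j₂.toLinearMap) hr (K.Q n)
  have hI : ∀ n x, K.mp i₁ n x = 0 → K.mp i₂ n x = 0 → x = 0 := fun n x e₁ e₂ => by
    refine eq_zero_of_pts (p := p) x fun F _ _ ψ => ?_
    rcases hl F (ψ.comp Algebra.TensorProduct.includeLeftRingHom) with ⟨g, hg⟩ | ⟨g, hg⟩
    · obtain ⟨G, hG, -⟩ := ext_pt i₁ ψ g hg
      rw [← hG, show i₁.toLinearMap.rTensor _ x = 0 from e₁, map_zero]
    · obtain ⟨G, hG, -⟩ := ext_pt i₂ ψ g hg
      rw [← hG, show i₂.toLinearMap.rTensor _ x = 0 from e₂, map_zero]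
  have r₁ : ∀ k, i₁ ((rt p B ^ k) w) = (rt p B₁ ^ k) (i₁ w) := fun k =>
    map_rt_pow i₁.toRingHom k w
  have r₂ : ∀ k, i₂ ((rt p B ^ k) w) = (rt p B₂ ^ k) (i₂ w) := fun k =>
    map_rt_pow i₂.toRingHom k w
  have r₃ : ∀ k, j₁ (i₁ ((rt p B ^ k) w)) = (rt p B₃ ^ k) (j₁ (i₁ w)) := fun k =>
    map_rt_pow (j₁.comp i₁).toRingHom k w
  have hB : ∀ n z, z ∈ K.Bd B₃ n →
      ∃ z₁ ∈ K.Bd B₁ n, ∃ z₂ ∈ K.Bd B₂ n, z = K.mp j₁ n z₁ - K.mp j₂ n z₂ := by
    rintro (_ | n) z hz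
    · exact ⟨0, zero_mem _, 0, zero_mem _, by rw [(Submodule.mem_bot _).1 hz]; simp⟩
    · obtain ⟨y, rfl⟩ := hz
      obtain ⟨y₁, y₂, rfl⟩ := (hR n).surj y
      exact ⟨_, ⟨y₁, rfl⟩, _, ⟨y₂, rfl⟩, by rw [map_sub, K.mp_D, K.mp_D]⟩
  intro n x hx k
  have e₁ := h₁ n (K.mp i₁ n x) (by rw [K.mp_D, hx, map_zero]) (k + 1)
  have e₂ := h₂ n (K.mp i₂ n x) (by rw [K.mp_D, hx, map_zero]) (k + 1)
  rw [← r₁, ← K.mp_smul] at e₁
  rw [← r₂, ← K.mp_smul] at e₂
  obtain ⟨c, hc⟩ := rt_split (p := p) w k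
  rw [hc, mul_smul, mul_smul]
  refine Submodule.smul_mem _ _ ?_
  have e₃ := fun n z hz => h₃ n z hz (k + 1)
  rw [← r₃] at e₃
  generalize (rt p B ^ (k + 1)) w = ε at e₁ e₂ e₃ ⊢
  generalize ε • x = x' at e₁ e₂ ⊢
  rcases n with _ | n
  · rw [hI 0 x' ((Submodule.mem_bot _).1 e₁) ((Submodule.mem_bot _).1 e₂), smul_zero]
    exact zero_mem _
  · obtain ⟨y₁, hy₁⟩ := e₁
    obtain ⟨y₂, hy₂⟩ := e₂
    obtain ⟨z₁, hz₁, z₂, hz₂, hz⟩ := hB n _ (e₃ n (K.mp j₁ n y₁ - K.mp j₂ n y₂) (by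
      rw [map_sub, K.mp_D, K.mp_D, hy₁, hy₂, (hR _).comm, sub_self]))
    obtain ⟨y, g₁, g₂⟩ := (hR n).mid (i₁ ε • y₁ - z₁) (i₂ ε • y₂ - z₂) (by
      rw [map_sub, map_sub, K.mp_smul, K.mp_smul, ← hr.comm, sub_eq_sub_iff_sub_eq_sub,
        ← smul_sub, hz])
    refine ⟨y, sub_eq_zero.1 (hI _ _ ?_ ?_)⟩
    · rw [map_sub, ← K.mp_D, g₁, map_sub, map_smul, hy₁, K.D_bd _ _ _ hz₁, K.mp_smul, sub_zero,
        sub_self]
    · rw [map_sub, ← K.mp_D, g₂, map_sub, map_smul, hy₂, K.D_bd _ _ _ hz₂, K.mp_smul, sub_zero,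
        sub_self]

omit hp in
theorem REx.base {C C₁ C₂ C₃ : Type u} [CommRing C] [CommRing C₁] [CommRing C₂] [CommRing C₃]
    [Algebra C C₁] [Algebra C C₂] [Algebra C C₃] {j₁ : C₁ →ₐ[C] C₃} {j₂ : C₂ →ₐ[C] C₃}
    (h : REx (algebraMap C C₁) (algebraMap C C₂) j₁ j₂) (B : Type u) [CommRing B] [Algebra C B] :
    REx (Algebra.TensorProduct.includeRight (R := C) (A := C₁) (B := B))
      (Algebra.TensorProduct.includeRight (R := C) (A := C₂) (B := B))
      (Algebra.TensorProduct.map j₁ (AlgHom.id C B))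
      (Algebra.TensorProduct.map j₂ (AlgHom.id C B)) := by
  have h' := REx.rTensor (i₁ := Algebra.linearMap C C₁) (i₂ := Algebra.linearMap C C₂)
    (j₁ := j₁.toLinearMap) (j₂ := j₂.toLinearMap) h B
  refine ⟨fun x => ?_, h'.surj, fun y₁ y₂ hy => ?_⟩
  · show j₁ 1 ⊗ₜ[C] x = j₂ 1 ⊗ₜ[C] x
    rw [map_one, map_one]
  · obtain ⟨x, h₁, h₂⟩ := h'.mid y₁ y₂ hy
    obtain ⟨b, rfl⟩ := (TensorProduct.lid C B).symm.surjective x
    rw [lid_symm_apply, LinearMap.rTensor_tmul, Algebra.linearMap_apply, map_one] at h₁ h₂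
    exact ⟨b, h₁, h₂⟩

omit hp in
theorem Lifts.base {C C₁ C₂ : Type u} [CommRing C] [CommRing C₁] [CommRing C₂] [Algebra C C₁]
    [Algebra C C₂] (h : Lifts p (algebraMap C C₁) (algebraMap C C₂)) (B : Type u) [CommRing B]
    [Algebra C B] :
    Lifts p (Algebra.TensorProduct.includeRight (R := C) (A := C₁) (B := B)).toRingHom
      (Algebra.TensorProduct.includeRight (R := C) (A := C₂) (B := B)).toRingHom := by
  intro F _ _ ψ
  have key : ∀ (A : Type u) [CommRing A] [Algebra C A] (g : A →+* F),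
      g.comp (algebraMap C A) = ψ.comp (algebraMap C B) → ∃ G : A ⊗[C] B →+* F,
      G.comp (Algebra.TensorProduct.includeRight (R := C) (A := A) (B := B)).toRingHom = ψ := by
    intro A _ _ g hg
    let : Algebra C F := (ψ.comp (algebraMap C B)).toAlgebra
    let g' : A →ₐ[C] F := { g with commutes' := fun r => congrArg (fun f : C →+* F => f r) hg }
    let ψ' : B →ₐ[C] F := { ψ with commutes' := fun _ => rfl }
    refine ⟨(Algebra.TensorProduct.lift g' ψ' fun _ _ => Commute.all _ _).toRingHom,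
      RingHom.ext fun b => ?_⟩
    show g 1 * ψ b = ψ b
    rw [map_one, one_mul]
  exact (h F (ψ.comp (algebraMap C B))).imp (fun ⟨g, hg⟩ => key _ g hg) fun ⟨g, hg⟩ => key _ g hg

variable (K) in
theorem aex_mv' [Pf p C₀] {C C₁ C₂ C₃ B : Type u} [CommRing C] [CommRing C₁] [CommRing C₂]
    [CommRing C₃] [CommRing B] [Pf p C] [Pf p C₁] [Pf p C₂] [Pf p C₃] [Pf p B] [Algebra C C₁]
    [Algebra C C₂] [Algebra C C₃] [Algebra C B] [Algebra C₀ C] [Algebra C₀ C₁] [Algebra C₀ C₂]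
    [Algebra C₀ C₃] [Algebra C₀ B] [IsScalarTower C₀ C C₁] [IsScalarTower C₀ C C₂]
    [IsScalarTower C₀ C C₃] [IsScalarTower C₀ C B] {j₁ : C₁ →ₐ[C] C₃} {j₂ : C₂ →ₐ[C] C₃}
    (hr : REx (algebraMap C C₁) (algebraMap C C₂) j₁ j₂)
    (hl : Lifts p (algebraMap C C₁) (algebraMap C C₂)) {w : C}
    (h₁ : K.AEx (C₁ ⊗[C] B) (algebraMap C _ w)) (h₂ : K.AEx (C₂ ⊗[C] B) (algebraMap C _ w))
    (h₃ : K.AEx (C₃ ⊗[C] B) (algebraMap C _ w)) : K.AEx B (algebraMap C B w) := by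
  refine aex_mv K
    ((Algebra.TensorProduct.includeRight (R := C) (A := C₁) (B := B)).restrictScalars C₀)
    ((Algebra.TensorProduct.includeRight (R := C) (A := C₂) (B := B)).restrictScalars C₀)
    ((Algebra.TensorProduct.map j₁ (AlgHom.id C B)).restrictScalars C₀)
    ((Algebra.TensorProduct.map j₂ (AlgHom.id C B)).restrictScalars C₀)
    (hr.base B) (hl.base B) ?_ ?_ ?_
  · rwa [AlgHom.restrictScalars_apply, AlgHom.commutes]
  · rwa [AlgHom.restrictScalars_apply, AlgHom.commutes]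
  · rwa [AlgHom.restrictScalars_apply, AlgHom.restrictScalars_apply, AlgHom.commutes,
      AlgHom.commutes]

end P261.Loc
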