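import Vale.Agent.P261Z.Loc.Th
import Vale.Agent.P261Z.Loc.Blw
import Vale.Agent.P261Z.Loc.Iso
import Vale.Agent.P261Z.Loc.Php
import Vale.Agent.P261Z.Loc.Idm
import Vale.Agent.P261Z.S.Sk

/-!
# P261Z, block LOC: almost acyclicity is local
-/

open TensorProduct

noncomputable section

namespace P261.Loc

variable {p : ℕ} [hp : Fact p.Prime] {k : Type} [Field k] {T T' : FP p k} (u : (Gm p k).obj T)
  (ψ : T.Hom T') (hT' : T'.F.Exh)

include hT' in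
theorem exists_sat {A : Type} [CommRing A] [Pf p A] (f : T'.F.zero →+* A) :
    ∃ (S : FP p k) (N : Mdl S A (f (zh ψ (w0 u)))) (g : T'.Hom S), ∀ c, g.f c.1 = N.β (f c) := by
  let N := mdlS (p := p) (f.comp (kz T')) (f (zh ψ (w0 u)))
  obtain ⟨g, hg⟩ := (mdl0 hT' ((Gm p k).map ψ u)).lift (N.β.comp f) (fun _ => N.mem _) N.u N.hu
    fun c => ⟨kz T' c, rfl, rfl⟩
  exact ⟨_, N, g, hg⟩

include hT' in
theorem st_of_sat {K : Cx p T.F.zero} {A : Type} [CommRing A] [Pf p A] (f : T'.F.zero →+* A)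
    (h : ∀ (S : FP p k) (g : T'.Hom S) (β : A →+* S.K), S.F.Exh → (∀ a, β a ∈ S.F.F 0) →
      (∀ c, g.f c.1 = β (f c)) → K.St (zh (g.comp ψ)) (zh (g.comp ψ) (w0 u))) :
    K.St (f.comp (zh ψ)) (f (zh ψ (w0 u))) := by
  obtain ⟨S, N, g, hg⟩ := exists_sat u ψ hT' f
  let : Algebra A S.F.zero := (N.β.codRestrict S.F.zero N.mem).toAlgebra
  refine Cx.St.pure (A := S.F.zero) (alm A _ _ (fun m c hc => ?_) fun m a => ?_) ?_
  · obtain ⟨e, he⟩ := N.ker c (congrArg Subtype.val hc)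
    exact rt_mul_eq_zero he m
  · obtain ⟨c, hc⟩ := N.cok m a.1 a.2
    exact ⟨c, Subtype.ext ((congrArg (· * a.1) (β_rt N m)).trans hc.symm)⟩
  · have e : (algebraMap A S.F.zero).comp (f.comp (zh ψ)) = zh (g.comp ψ) :=
      RingHom.ext fun c => Subtype.ext (hg (zh ψ c)).symm
    rw [e, show algebraMap A S.F.zero (f (zh ψ (w0 u))) = zh (g.comp ψ) (w0 u) from
      DFunLike.congr_fun e _]
    exact h S g N.β N.exh N.mem hg

variable {X : PF p k} {C : CFO X} {x : X.obj T} {ι : ℕ → Type}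
  (R : ∀ n, ((C.loc T x).toCF.nf n).MRep (ι n)) [∀ n, Finite (ι n)]

omit [∀ n, Finite (ι n)] in
theorem nx {P : (T'' : FP p k) → T'.Hom T'' → Prop}
    (hP : ∀ T'' g, P T'' g → C.LAc T'' (X.map (g.comp ψ) x)) {S : FP p k} (g : T'.Hom S)
    (T'' : FP p k) (g' : S.Hom T'') (h : P T'' (g'.comp g)) :
    C.LAc T'' (X.map (g'.comp (g.comp ψ)) x) := by
  rw [show g'.comp (g.comp ψ) = (g'.comp g).comp ψ from rfl]
  exact hP _ _ h

theorem st_of_floc (hT : T.F.Exh) {T' : FP p k} {P : (T'' : FP p k) → T'.Hom T'' → Prop}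
    (h : FLoc T' P) : T'.F.Exh → ∀ ψ : T.Hom T',
    (∀ T'' g, P T'' g → C.LAc T'' (X.map (g.comp ψ) x)) → (cx R).St (zh ψ) (zh ψ (w0 u)) := by
  induction h with
  | here h =>
    intro hT' ψ hP B _ _ _ φ hφ
    obtain ⟨S, N, g, hg⟩ := exists_sat u ψ hT' φ
    have h1 := hP _ _ h S g
    rw [← X.map_comp] at h1
    exact aex_of_aac R (g.comp ψ) N
      (fun c => (congrArg N.β (DFunLike.congr_fun hφ c).symm).trans (hg (zh ψ c)).symm) u
      (DFunLike.congr_fun hφ _) hT h1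
  | triv h =>
    intro _ ψ _ B _ _ _ φ _ n y _ m
    have : Subsingleton B := φ.codomain_trivial
    have := Module.subsingleton B (B ⊗[T.F.zero] (cx R).Q n)
    rw [Subsingleton.elim (_ • y) 0]
    exact zero_mem _
  | @pure T' P D _ _ hD _ ih =>
    intro hT' ψ hP
    have : Ch p D := Ch.of_hom (algebraMap T'.F.zero D)
    refine Cx.St.pure (A := PH p D) (fun M _ _ y hy m => by
      rw [php _ D hD M y hy, smul_zero]) (st_of_sat u ψ hT' _ fun S g β hS hβ hg => ?_)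
    exact ih S g hS ⟨β.comp (algebraMap D _), fun _ => hβ _, fun c => (hg c).symm⟩ hS _
      (nx ψ hP g)
  | @bl T' P a b ha hb _ ih =>
    intro hT' ψ hP
    obtain ⟨C₁, C₂, C₃, _, _, _, _, _, _, _, _, _, j₁, j₂, hr, hl, ⟨t₁, h₁⟩, t₂, h₂⟩ :=
      blw (p := p) T'.F.zero ⟨a, ha⟩ ⟨b, hb⟩
    refine Cx.St.mv hr hl (st_of_sat u ψ hT' _ fun S g β hS hβ hg => ?_)
      (st_of_sat u ψ hT' _ fun S g β hS hβ hg => ?_)
    · refine ih S g hS ⟨β t₁, hβ _, .inl ?_⟩ hS _ (nx ψ hP g)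
      rw [hg ⟨a, ha⟩, hg ⟨b, hb⟩, h₁, map_mul]
    · refine ih S g hS ⟨β t₂, hβ _, .inr ?_⟩ hS _ (nx ψ hP g)
      rw [hg ⟨a, ha⟩, hg ⟨b, hb⟩, h₂, map_mul]
  | @iso T' P J _ g₀ D _ _ _ hs hi _ _ ih ih' =>
    intro hT' ψ hP
    refine iso_of blw _ _ _ D _ _ J g₀ hs hi (st_of_sat u ψ hT' _ fun S g β hS hβ hg => ?_)
      fun A _ _ f i hi => st_of_sat u ψ hT' _ fun S g β hS hβ hg => ?_
    · exact ih S g hS ⟨β, hβ, fun c => (hg c).symm⟩ hS _ (nx ψ hP g)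
    · obtain ⟨t, ht⟩ := hi.exists_right_inv
      refine ih' S g hS ⟨i, β t, hβ _, ?_⟩ hS _ (nx ψ hP g)
      rw [hg, ← map_mul, ht, map_one]
  | @idem T' P J t h0 ht _ _ ih ih' =>
    intro hT' ψ hP
    refine idm _ _ _ _ _ J (fun i => (⟨t i, h0 i⟩ : T'.F.zero)) (fun i => Subtype.ext (ht i))
      (fun A _ _ f hf => st_of_sat u ψ hT' _ fun S g β hS hβ hg => ?_)
      fun A _ _ f i hi => st_of_sat u ψ hT' _ fun S g β hS hβ hg => ?_
    · refine ih S g hS (fun i => ?_) hS _ (nx ψ hP g)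
      rw [hg ⟨t i, h0 i⟩, hf, map_zero]
    · refine ih' S g hS ⟨i, ?_⟩ hS _ (nx ψ hP g)
      rw [hg ⟨t i, h0 i⟩]
      exact hi.map β

theorem local' : SS.LOCAL p k := by
  intro _ X C T u x hT hR hL
  choose ι hι hM using hR
  have h := st_of_floc u (fun n => (hM n).some) hT hL hT (.id T) fun _ _ h => h
  have h' := aac_of_aex (fun n => (hM n).some) (.id T) (mdl0 hT u) (fun _ => rfl) u rfl hT
    (h T.F.zero (RingHom.id _) (RingHom.ext fun _ => rfl))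
  rwa [X.map_id] at h'

end P261.Loc
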