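import Vale.Agent.P261Z.Loc.Core

/-!
# P261Z, block LOC: descent along Mayer-Vietoris squares
-/

open TensorProduct

noncomputable section

namespace P261.Loc

universe u

variable {p : ℕ} [hp : Fact p.Prime] {C₀ : Type u} [CommRing C₀] {K : Cx p C₀}

/-- descent along Mayer-Vietoris squares of perfect rings -/
theorem _root_.P261.Loc.Cx.St.mv [Pf p C₀] {C C₁ C₂ C₃ : Type u} [CommRing C] [CommRing C₁]
    [CommRing C₂] [CommRing C₃] [Pf p C] [Pf p C₁] [Pf p C₂] [Pf p C₃] [Algebra C C₁]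
    [Algebra C C₂] [Algebra C C₃] {j₁ : C₁ →ₐ[C] C₃} {j₂ : C₂ →ₐ[C] C₃}
    (hr : REx (algebraMap C C₁) (algebraMap C C₂) j₁ j₂)
    (hl : Lifts p (algebraMap C C₁) (algebraMap C C₂)) {ι : C₀ →+* C} {w : C}
    (h₁ : K.St ((algebraMap C C₁).comp ι) (algebraMap C C₁ w))
    (h₂ : K.St ((algebraMap C C₂).comp ι) (algebraMap C C₂ w)) : K.St ι w := by
  intro B _ _ _ φ hφ
  let : Algebra C₀ C := ι.toAlgebra
  let : Algebra C₀ C₁ := ((algebraMap C C₁).comp ι).toAlgebra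
  let : Algebra C₀ C₂ := ((algebraMap C C₂).comp ι).toAlgebra
  let : Algebra C₀ C₃ := ((algebraMap C C₃).comp ι).toAlgebra
  have : IsScalarTower C₀ C C₁ := IsScalarTower.of_algebraMap_eq' rfl
  have : IsScalarTower C₀ C C₂ := IsScalarTower.of_algebraMap_eq' rfl
  have : IsScalarTower C₀ C C₃ := IsScalarTower.of_algebraMap_eq' rfl
  let : Algebra C B := φ.toAlgebra
  have : IsScalarTower C₀ C B := IsScalarTower.of_algebraMap_eq' hφ.symm
  have e : j₁.toRingHom.comp (algebraMap C C₁) = algebraMap C C₃ := j₁.comp_algebraMap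
  have h₃ := h₁.mono j₁.toRingHom
  rw [← RingHom.comp_assoc, ← RingHom.comp_apply, e] at h₃
  refine aex_mv' K (w := w) hr hl ?_ ?_ ?_
  · exact h₁ (C₁ ⊗[C] B) Algebra.TensorProduct.includeLeftRingHom rfl
  · exact h₂ (C₂ ⊗[C] B) Algebra.TensorProduct.includeLeftRingHom rfl
  · exact h₃ (C₃ ⊗[C] B) Algebra.TensorProduct.includeLeftRingHom rfl

end P261.Loc
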