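import Vale.Agent.P261Z.S.CF
import Vale.Agent.P261Z.W.Pole
import Vale.Agent.P261Z.W.Hull

/-!
# P261Z, block LOC: integral models of marked test objects
-/

noncomputable section

namespace P261.Loc

variable {p : ℕ} [hp : Fact p.Prime] {k : Type} [Field k]

instance pfZero (T : FP p k) : Pf p T.F.zero :=
  Pf.subring _ fun x hx => T.F.root (by rw [rt_pow, mul_zero]; exact hx)

/-- the roots of a marked unit -/
def ru {T : FP p k} (u : (Gm p k).obj T) (m : ℕ) : T.Kˣ :=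
  Units.map (rt p T.K ^ m).toMonoidHom u.1

theorem ru_val {T : FP p k} (u : (Gm p k).obj T) (m : ℕ) :
    (ru u m : T.K) = (rt p T.K ^ m) (u.1 : T.K) := rfl

theorem ru_mem {T : FP p k} (u : (Gm p k).obj T) (m : ℕ) :
    (ru u m : T.K) ∈ T.F.F (-(1 / p ^ m)) := by
  refine Fil.root_pow m ?_
  rw [ru_val, rt_pow_pp, mul_neg, mul_one_div_cancel (pow_pos p_pos' m).ne']
  exact u.2.1

theorem ru_inv_mem {T : FP p k} (u : (Gm p k).obj T) (m : ℕ) :
    (((ru u m)⁻¹ : T.Kˣ) : T.K) ∈ T.F.F (1 / p ^ m) := by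
  refine Fil.root_pow m ?_
  rw [mul_one_div_cancel (pow_pos p_pos' m).ne']
  show (rt p T.K ^ m) ((u.1⁻¹ : T.Kˣ) : T.K) ^ p ^ m ∈ _
  rw [rt_pow_pp]
  exact u.2.2

/-- almost integral elements are integral -/
theorem mem_of_ru {T : FP p k} (u : (Gm p k).obj T) {y : T.K}
    (h : ∀ m, (ru u m : T.K) * y ∈ T.F.F 0) : y ∈ T.F.F 0 :=
  T.cl.of_pow (b := 1) fun m => by
    simpa using T.F.mul_le (ru_inv_mem u m) (h m) (u := 0 + 1 / p ^ m) (by linarith)

/-- `B` is an integral model of the marked test object `T` -/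
structure Mdl (T : FP p k) (B : Type) [CommRing B] (v : B) where
  /-- the map -/
  β : B →+* T.K
  /-- the marked unit -/
  u : (Gm p k).obj T
  hu : β v = u.1
  mem : ∀ b, β b ∈ T.F.F 0
  ker : ∀ b, β b = 0 → ∃ N : ℕ, v ^ N * b = 0
  cok : ∀ (m : ℕ) (y : T.K), y ∈ T.F.F 0 → ∃ b, β b = (ru u m : T.K) * y
  exh : T.F.Exh

namespace Mdl

variable {T S : FP p k} {B : Type} [CommRing B] {v : B} (M : Mdl T B v)

theorem surj (y : T.K) : ∃ (N : ℕ) (b : B), y * M.β v ^ N = M.β b := by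
  obtain ⟨t, ht⟩ := M.exh y
  obtain ⟨N, hN⟩ := exists_nat_ge t
  obtain ⟨b, hb⟩ := M.cok 0 ((M.u.1 : T.K) ^ N * y)
    (T.F.mul_le (T.F.pow_mem M.u.2.1 N) ht (by linarith))
  refine ⟨N + 1, b, ?_⟩
  rw [hb, M.hu, ru_val, pow_zero, RingHom.coe_one, id]
  ring

theorem isLoc : letI := M.β.toAlgebra; IsLocalization.Away v T.K := by
  let := M.β.toAlgebra
  refine IsLocalization.Away.mk v (by
    show IsUnit (M.β v)
    rw [M.hu]
    exact M.u.1.isUnit) (fun y => ?_) fun a b hab => ?_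
  · obtain ⟨N, b, h⟩ := M.surj y
    exact ⟨N, b, h⟩
  · obtain ⟨N, hN⟩ := M.ker (a - b) (by rw [map_sub]; exact sub_eq_zero.2 hab)
    exact ⟨N, by rw [← sub_eq_zero, ← mul_sub, hN]⟩

theorem ext {σ τ : T.Hom S} (h : ∀ b, σ.f (M.β b) = τ.f (M.β b)) : σ = τ := by
  refine FP.Hom.ext (AlgHom.ext fun y => ?_)
  obtain ⟨N, b, hb⟩ := M.surj y
  have hu : IsUnit (σ.f (M.β v) ^ N) := by
    rw [M.hu]
    exact (M.u.1.isUnit.map σ.f).pow N
  refine hu.mul_right_cancel ?_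
  rw [← map_pow, ← map_mul, hb, map_pow, h v, ← map_pow, ← map_mul, hb, h b]

theorem lift (γ : B →+* S.K) (hγ : ∀ b, γ b ∈ S.F.F 0) (u : (Gm p k).obj S) (hu : γ v = u.1)
    (hk : ∀ c : k, ∃ b, M.β b = algebraMap k _ c ∧ γ b = algebraMap k _ c) :
    ∃ σ : T.Hom S, ∀ b, σ.f (M.β b) = γ b := by
  let := M.β.toAlgebra
  have := M.isLoc
  have hv : IsUnit (γ v) := hu ▸ u.1.isUnit
  let σ : T.K →+* S.K := IsLocalization.Away.lift v hv
  have hσ : ∀ b, σ (M.β b) = γ b := IsLocalization.Away.lift_eq v hv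
  have h1 : σ (M.u.1 : T.K) = u.1 := by rw [← M.hu, hσ, hu]
  have h2 : σ ((M.u.1⁻¹ : T.Kˣ) : T.K) = (u.1⁻¹ : S.Kˣ) :=
    Units.eq_inv_of_mul_eq_one_left (by rw [← h1, ← map_mul, Units.mul_inv, map_one])
  have h0 : ∀ y ∈ T.F.zero, σ y ∈ S.F.F 0 := fun y hy => mem_of_ru u fun m => by
    obtain ⟨b, hb⟩ := M.cok m y hy
    rw [ru_val, ← h1, ← map_rt_pow, ← map_mul, ← ru_val, ← hb, hσ]
    exact hγ b
  have hm : Fil.Maps σ T.F S.F := by
    rw [T.cl.eq_pole M.u.2.1 M.u.2.2]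
    exact (Fil.pole_maps S.cl).2 ⟨h0, h1 ▸ u.2.1, h2 ▸ u.2.2⟩
  refine ⟨⟨{ σ with commutes' := fun c => ?_ }, hm⟩, hσ⟩
  obtain ⟨b, e₁, e₂⟩ := hk c
  exact e₁ ▸ (hσ b).trans e₂

end Mdl

/-- the marked unit as an integral element -/
def w0 {T : FP p k} (u : (Gm p k).obj T) : T.F.zero := ⟨u.1, T.F.le u.2.1 (by norm_num)⟩

/-- the step zero is a model -/
def mdl0 {T : FP p k} (h : T.F.Exh) (u : (Gm p k).obj T) : Mdl T T.F.zero (w0 u) where
  β := T.F.zero.subtype
  u := u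
  hu := rfl
  mem b := b.2
  ker b hb := ⟨0, by rw [show b = 0 from Subtype.ext hb, mul_zero]⟩
  cok m y hy := ⟨⟨_, T.F.mul_le (ru_mem u m) hy (by simp)⟩, rfl⟩
  exh := h

section sat

variable {E : Type} [CommRing E] [Pf p E] (κ : k →+* E) (v : E)

instance : Pf p (Localization.Away v) := Pf.loc (Submonoid.powers v) _

/-- the unit -/
def su : (Localization.Away v)ˣ :=
  (IsLocalization.Away.algebraMap_isUnit (S := Localization.Away v) v).unit

omit hp [Pf p E] in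
theorem su_mem : (su v : Localization.Away v) ∈ (algebraMap E (Localization.Away v)).range :=
  ⟨v, rfl⟩

theorem su_root (y : Localization.Away v) (h : y ^ p ∈ (algebraMap E (Localization.Away v)).range) :
    y ∈ (algebraMap E (Localization.Away v)).range :=
  let ⟨e, he⟩ := h
  ⟨rt p E e, by rw [map_rt, he, rt_pow']⟩

/-- the test object `E[1/v]` with the pole filtration -/
def sat : FP p k where
  K := Localization.Away v
  alg := ((algebraMap E _).comp κ).toAlgebra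
  F := Fil.pole _ (su v) (su_mem v) (su_root v)
  cl := Fil.closed_pole
  k0 c := Fil.pole_of_mem ⟨κ c, rfl⟩

/-- `E` is a model of `sat κ v` -/
def mdlS : Mdl (sat (p := p) κ v) E v where
  β := algebraMap E (Localization.Away v)
  u := ⟨su v, Fil.pole_w (hw := su_mem v) (hC := su_root v),
    Fil.pole_inv (hw := su_mem v) (hC := su_root v)⟩
  hu := rfl
  mem b := Fil.pole_of_mem (hw := su_mem v) (hC := su_root v) ⟨b, rfl⟩
  ker b hb := by
    obtain ⟨⟨_, N, rfl⟩, h⟩ := 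
      (IsLocalization.map_eq_zero_iff (Submonoid.powers v) (Localization.Away v) b).1 hb
    exact ⟨N, h⟩
  cok m y hy := (Fil.pole_zero_iff_rt (hw := su_mem v) (hC := su_root v)).1 hy m
  exh := Fil.exh_pole (hw := su_mem v) (hC := su_root v) fun y => by
    obtain ⟨N, b, h⟩ := IsLocalization.Away.surj (S := Localization.Away v) v y
    exact ⟨N, b, by rw [← h, mul_comm]; rfl⟩

theorem mdlS_k (c : k) : (mdlS (p := p) κ v).β (κ c) = algebraMap k (sat (p := p) κ v).K c := rfl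

end sat

end P261.Loc
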