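import Vale.Agent.P261Z.Loc.Tr

/-!
# P261Z, block LOC: comparison of `B ⊗ Q` with the natural functions over a model
-/

open TensorProduct

noncomputable section

namespace P261.Loc

variable {p : ℕ} [hp : Fact p.Prime] {k : Type} [Field k] {X : PF p k} {C : CFO X}
  {T T' : FP p k} {x : X.obj T} {ι : ℕ → Type} (R : ∀ n, ((C.loc T x).toCF.nf n).MRep (ι n))
  (ψ : T.Hom T') {B : Type} [CommRing B] [Algebra T.F.zero B] {v : B} (M : Mdl T' B v)
  (hc : ∀ c, M.β (algebraMap T.F.zero B c) = ψ.f c.1)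

/-- the comparison map -/
def Th (n : ℕ) : B ⊗[T.F.zero] (cx R).Q n →+ (C.loc T' (X.map ψ x)).toCF.Fn n := liftAddHom
  { toFun := fun b =>
      { toFun := fun q => (mulH C _ (M.β b)).app n ((fw C x ψ).pull.app n (ex R q))
        map_zero' := by rw [ex_zero, map_zero, map_zero]
        map_add' := fun q q' => by rw [ex_add, map_add, map_add] }
    map_zero' := AddMonoidHom.ext fun q => Subtype.ext (funext fun S => funext fun z => by
      show z.1.1.f (M.β 0) * _ = 0
      rw [map_zero, map_zero, zero_mul])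
    map_add' := fun b b' => AddMonoidHom.ext fun q =>
      Subtype.ext (funext fun S => funext fun z => by
        show z.1.1.f (M.β (b + b')) * _ = z.1.1.f (M.β b) * _ + z.1.1.f (M.β b') * _
        rw [map_add, map_add, add_mul]) }
  fun c b q => Subtype.ext (funext fun S => funext fun z => by
    show z.1.1.f (M.β (c • b)) * (ex R q).1 S _ = z.1.1.f (M.β b) * (ex R (c • q)).1 S _
    rw [ex_smul, Algebra.smul_def, map_mul, map_mul, hc, mul_comm (z.1.1.f _), mul_assoc]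
    rfl)

theorem Th_tmul (n : ℕ) (b : B) (q : (cx R).Q n) : Th R ψ M hc n (b ⊗ₜ q) =
    (mulH C _ (M.β b)).app n ((fw C x ψ).pull.app n (ex R q)) := rfl

theorem Th_d (n : ℕ) (y : B ⊗[T.F.zero] (cx R).Q n) : Th R ψ M hc (n + 1) ((cx R).D B n y) =
    (C.loc T' (X.map ψ x)).toCF.cos.d n (Th R ψ M hc n y) := by
  induction y with
  | zero => simp only [map_zero]
  | tmul b q =>
    rw [Cx.D_tmul, Th_tmul, Th_tmul, ← Cs.Hom.map_d, ← Cs.Hom.map_d, ← ex_dq]
    rfl
  | add y y' h h' => simp only [map_add, h, h']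

theorem Th_smul (n : ℕ) (b : B) (y : B ⊗[T.F.zero] (cx R).Q n) :
    Th R ψ M hc n (b • y) = (mulH C _ (M.β b)).app n (Th R ψ M hc n y) := by
  induction y with
  | zero => simp only [smul_zero, map_zero]
  | tmul a q => rw [smul_tmul', Th_tmul, Th_tmul, mulH_mul, smul_eq_mul, map_mul]
  | add y y' h h' => simp only [smul_add, map_add, h, h']

theorem Th_mem (n : ℕ) (y : B ⊗[T.F.zero] (cx R).Q n) :
    Th R ψ M hc n y ∈ ((C.loc T' (X.map ψ x)).toCF.step 0).S n := by
  induction y with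
  | zero => rw [map_zero]; exact zero_mem _
  | tmul a q => exact mulH_mem (M.mem a) (t := 0) (fun S z => ex_mem R q S _) (by simp)
  | add y y' h h' => rw [map_add]; exact add_mem h h'

theorem Th_bd : ∀ (n : ℕ) (y : B ⊗[T.F.zero] (cx R).Q n), y ∈ (cx R).Bd B n →
    Th R ψ M hc n y ∈ ((C.loc T' (X.map ψ x)).toCF.step 0).bd n
  | 0, y, h => by rw [(Submodule.mem_bot B).1 h, map_zero]; exact zero_mem _
  | n + 1, _, ⟨y, rfl⟩ => ⟨_, Th_mem R ψ M hc n y, (Th_d R ψ M hc n y).symm⟩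

variable [Pf p B] (u : (Gm p k).obj T) (hv : v = algebraMap T.F.zero B (w0 u)) (hT : T.F.Exh)

include hv hT in
theorem cover (n : ℕ) (i : ι n) : ∃ (S : FP p k)
    (N : Mdl S (B ⊗[T.F.zero] QI R n i) (algebraMap B _ v))
    (z : ((C.loc T' (X.map ψ x)).Z n).obj S),
    (∀ y, (Th R ψ M hc n y).1 S z = N.β (piRightHom T.F.zero B B (QI R n) y i)) ∧
    (∀ b, z.1.1.f (M.β b) = N.β (algebraMap B _ b)) ∧
    ∀ (S' : FP p k) (z' : ((C.loc T' (X.map ψ x)).Z n).obj S') (α : ((R n).U i).Hom S'),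
      (fw C x ψ).f z' = ((C.loc T x).Z n).map α (up R n i) →
      ∃ σ : S.Hom S', ((C.loc T' (X.map ψ x)).Z n).map σ z = z' := by
  let E := B ⊗[T.F.zero] QI R n i
  let κ : k →+* E := (algebraMap T.F.zero E).comp (kz T)
  let N := mdlS (p := p) κ (algebraMap B E v)
  let φ := (up R n i).1.1
  let MU := mdl0 ((R n).exh i) ((Gm p k).map φ u)
  let r : QI R n i →ₐ[T.F.zero] E := Algebra.TensorProduct.includeRight
  obtain ⟨a, ha⟩ := M.lift (N.β.comp (algebraMap B E)) (fun _ => N.mem _) N.u N.hu fun c =>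
    ⟨algebraMap _ B (kz T c), (hc _).trans (ψ.f.commutes c), rfl⟩
  obtain ⟨b, hb⟩ := MU.lift (N.β.comp r.toRingHom) (fun _ => N.mem _) N.u
    ((congrArg N.β ((r.commutes (w0 u)).trans (by rw [hv]; rfl))).trans N.hu) fun c =>
    ⟨algebraMap _ (QI R n i) (kz T c), φ.f.commutes c, congrArg N.β (r.commutes (kz T c))⟩
  have hab : a.comp ψ = b.comp φ := (mdl0 hT u).ext fun c =>
    ((congrArg a.f (hc c).symm).trans (ha _)).trans
      ((hb (algebraMap _ (QI R n i) c)).trans (congrArg N.β (r.commutes c))).symm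
  let z : ((C.loc T' (X.map ψ x)).Z n).obj (sat κ (algebraMap B E v)) :=
    ⟨(a, (C.Z n).map b (up R n i).1.2), by
      show C.π ((C.Z n).map b _) = X.map a (X.map ψ x)
      rw [C.π_map, ← X.map_comp, hab]
      exact (congrArg (X.map b) (up R n i).2).trans (X.map_comp b φ x).symm⟩
  have hz : (fw C x ψ).f z = ((C.loc T x).Z n).map b (up R n i) :=
    Subtype.ext (Prod.ext hab rfl)
  refine ⟨_, N, z, fun y => ?_, ha, fun S' z' α h => ?_⟩
  · induction y with
    | zero => simp only [map_zero, Pi.zero_apply]; rfl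
    | tmul c q =>
      show a.f (M.β c) * (ex R q).1 _ ((fw C x ψ).f z) = N.β (c ⊗ₜ q i)
      rw [hz, ex_pt, ha]
      refine (congrArg (_ * ·) (hb (q i))).trans ((map_mul N.β _ _).symm.trans (congrArg N.β ?_))
      exact (Algebra.TensorProduct.tmul_mul_tmul c 1 1 (q i)).trans (by rw [mul_one, one_mul])
    | add y y' h h' =>
      rw [map_add, map_add, Pi.add_apply, map_add, ← h, ← h']
      rfl
  · have e₁ : z'.1.1.comp ψ = α.comp φ := congrArg (fun t => t.1.1) h
    have e₂ : z'.1.2 = (C.Z n).map α (up R n i).1.2 := congrArg (fun t => t.1.2) h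
    let : Algebra T.F.zero S'.K := ((α.comp φ).r.comp T.F.zero.subtype).toAlgebra
    let g₁ : B →ₐ[T.F.zero] S'.K :=
      { z'.1.1.r.comp M.β with
        commutes' := fun c => (congrArg z'.1.1.f (hc c)).trans (congrArg (fun t => t.f c.1) e₁) }
    let g₂ : QI R n i →ₐ[T.F.zero] S'.K :=
      { α.r.comp ((R n).U i).F.zero.subtype with commutes' := fun _ => rfl }
    let γ := Algebra.TensorProduct.lift g₁ g₂ fun _ _ => Commute.all _ _
    have γ₁ : ∀ c, γ (algebraMap B E c) = z'.1.1.f (M.β c) := fun c => by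
      show g₁ c * g₂ 1 = _
      rw [map_one, mul_one]
      rfl
    have γ₂ : ∀ q, γ (r q) = α.f q.1 := fun q => by
      show g₁ 1 * g₂ q = _
      rw [map_one, one_mul]
      rfl
    obtain ⟨σ, hσ⟩ := N.lift γ.toRingHom (fun e => by
        induction e using TensorProduct.induction_on with
        | zero => rw [map_zero]; exact zero_mem _
        | tmul c q =>
          exact S'.F.mul_le (z'.1.1.mem _ _ (M.mem c)) (α.mem _ _ q.2) (add_zero _).le
        | add e e' h h' => rw [map_add]; exact add_mem h h')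
      ((Gm p k).map z'.1.1 M.u) ((γ₁ v).trans (congrArg z'.1.1.f M.hu)) fun c =>
      ⟨κ c, rfl, (γ.commutes (kz T c)).trans ((α.comp φ).f.commutes c)⟩
    have s₁ : σ.comp a = z'.1.1 := M.ext fun c =>
      ((congrArg σ.f (ha c)).trans (hσ _)).trans (γ₁ c)
    have s₂ : σ.comp b = α := MU.ext fun q => ((congrArg σ.f (hb q)).trans (hσ _)).trans (γ₂ q)
    refine ⟨σ, Subtype.ext (Prod.ext s₁ ?_)⟩
    show (C.Z n).map σ ((C.Z n).map b _) = _
    rw [← PF.map_comp, s₂, e₂]

variable [∀ n, Finite (ι n)]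

include hv hT in
theorem Th_ker (n : ℕ) (y : B ⊗[T.F.zero] (cx R).Q n) (h : Th R ψ M hc n y = 0) (m : ℕ) :
    (rt p B ^ m) v • y = 0 := by
  classical
  have := Fintype.ofFinite (ι n)
  refine (piRight T.F.zero B B (QI R n)).injective (funext fun i => ?_)
  obtain ⟨S, N, z, h1, -, -⟩ := cover R ψ M hc u hv hT n i
  obtain ⟨e, he⟩ := N.ker _ ((h1 y).symm.trans (by rw [h]; rfl))
  have h2 := rt_mul_eq_zero (p := p) he m
  rw [← map_rt_pow, ← Algebra.smul_def] at h2
  rw [map_smul, map_zero]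
  exact h2

include hv hT in
theorem Th_cok (n : ℕ) (g : (C.loc T' (X.map ψ x)).toCF.Fn n)
    (hg : g ∈ ((C.loc T' (X.map ψ x)).toCF.step 0).S n) (m : ℕ) :
    ∃ y, Th R ψ M hc n y = (mulH C _ (M.β ((rt p B ^ m) v))).app n g := by
  classical
  have := Fintype.ofFinite (ι n)
  choose S N z h1 h2 h3 using cover R ψ M hc u hv hT n
  choose e he using fun i => (N i).cok m _ (hg _ (z i))
  obtain ⟨y, hy⟩ := (piRight T.F.zero B B (QI R n)).surjective e
  refine ⟨y, Subtype.ext (funext fun S' => funext fun z' => ?_)⟩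
  rcases cases_pt R ((fw C x ψ).f z') with hz | ⟨i, α, hz⟩
  · rw [(Th R ψ M hc n y).2.2 S' z' hz, ((mulH C _ _).app n g).2.2 S' z' hz]
  · obtain ⟨σ, rfl⟩ := h3 i S' z' α hz
    rw [(Th R ψ M hc n y).2.1, ((mulH C _ _).app n g).2.1, h1]
    refine congrArg σ.f (((congrArg (N i).β (congrFun hy i)).trans (he i)).trans ?_)
    show _ = (z i).1.1.f _ * g.1 _ _
    rw [h2, map_rt_pow, map_rt_pow, (N i).hu, ru_val]

theorem β_rt (m : ℕ) : M.β ((rt p B ^ m) v) = ru M.u m := by rw [map_rt_pow, M.hu, ru_val]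

include hv hT hc in
theorem aex_of_aac (h : (C.loc T' (X.map ψ x)).toCF.AAc) : (cx R).AEx B v := by
  intro n y hy m
  obtain ⟨c, e⟩ := rt_split (p := p) v m
  obtain ⟨c', e'⟩ := rt_split (p := p) v (m + 1)
  have h1 := h n 0 (1 / p ^ (m + 1 + 1)) le_rfl (by have := p_pos' (p := p); positivity) _
    (Th_mem R ψ M hc n y) (by
      show (C.loc T' (X.map ψ x)).toCF.cos.d n _ = 0
      rw [← Th_d, hy, map_zero])
  have h2 := mulH_bd (u := 0) (ru_mem M.u (m + 1 + 1)) (by simp) h1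
  have hk := fun n y h => Th_ker R ψ M hc u hv hT n y h (m + 1)
  rw [← β_rt, Cs.Hom.id_app, ← Th_smul] at h2
  rw [e, mul_smul, mul_smul]
  refine Submodule.smul_mem _ _ ?_
  rcases n with _ | n
  · have : ∀ a b : B, a = c' * (b * b) → a • a • y = (c' * b) • a • b • y := by
      rintro a b rfl
      simp only [← mul_smul]
      congr 1
      ring
    rw [this _ _ e', hk 0 _ ((Submodule.mem_bot k).1 h2), smul_zero]
    exact zero_mem _
  · obtain ⟨g, hg, hd⟩ := h2
    obtain ⟨y', hy'⟩ := Th_cok R ψ M hc u hv hT n g hg (m + 1 + 1)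
    have h3 := hk (n + 1) ((cx R).D B n y' - (rt p B ^ (m + 1 + 1)) v •
      (rt p B ^ (m + 1 + 1)) v • y) (by
        rw [map_sub, Th_d, hy', ← Cs.Hom.map_d, hd, ← Th_smul, sub_self])
    rw [smul_sub, sub_eq_zero] at h3
    refine ⟨c' • (rt p B ^ (m + 1)) v • y', ?_⟩
    rw [map_smul, map_smul, h3, smul_comm c', ← mul_smul ((rt p B ^ (m + 1 + 1)) v),
      ← mul_smul c', ← e']

include hv hT hc in
theorem aac_of_aex (h : (cx R).AEx B v) : (C.loc T' (X.map ψ x)).toCF.AAc := by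
  intro n β ε hβ hε g hg hd
  obtain ⟨m, hm⟩ := pow_unbounded_of_one_lt (4 / ε) (by linarith [two_le_p (p := p)] : (1 : ℝ) < p)
  have hq := pow_pos (p_pos' (p := p)) m
  let a := ⌈β * p ^ m⌉₊
  have a₁ : β ≤ a * (1 / p ^ m) := by
    rw [mul_one_div, le_div_iff₀ hq]
    exact Nat.le_ceil _
  have a₂ : ((a + 3 : ℕ) : ℝ) * (1 / p ^ m) ≤ β + ε := by
    have := Nat.ceil_lt_add_one (mul_nonneg hβ hq.le)
    rw [div_lt_iff₀ hε] at hm
    rw [mul_one_div, div_le_iff₀ hq]
    push_cast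
    nlinarith
  obtain ⟨y, hy⟩ := Th_cok R ψ M hc u hv hT n _
    (mulH_mem (u := 0) (T'.F.pow_mem (ru_mem M.u m) a) hg (by linarith)) m
  have hd' : (C.loc T' (X.map ψ x)).toCF.cos.d n g = 0 := hd
  have h1 := Th_ker R ψ M hc u hv hT (n + 1) ((cx R).D B n y) (by
    rw [Th_d, hy, ← Cs.Hom.map_d, ← Cs.Hom.map_d, hd', map_zero, map_zero]) m
  have h2 := Th_bd R ψ M hc n _ (h n ((rt p B ^ m) v • y) (by rw [map_smul, h1]) m)
  have h3 := mulH_bd (u := β + ε) (T'.F.pow_mem (ru_inv_mem M.u m) (a + 3)) (by linarith) h2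
  rw [Th_smul, Th_smul, hy, β_rt, mulH_mul, mulH_mul, mulH_mul, mulH_mul,
    show ((ru M.u m)⁻¹ : T'.Kˣ).1 ^ (a + 3) * ru M.u m * ru M.u m * ru M.u m * ru M.u m ^ a =
      (((ru M.u m)⁻¹ : T'.Kˣ).1 * ru M.u m) ^ (a + 3) by ring, Units.inv_mul, one_pow,
    mulH_one] at h3
  exact h3

end P261.Loc
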