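import Vale.Agent.P261Z.Loc.Sat
import Vale.Agent.P261Z.Loc.Core
import Vale.Agent.P261Z.Cs.Htpy

/-!
# P261Z, block LOC: the complex of rings attached to a representable configuration functor
-/

open TensorProduct

noncomputable section

namespace P261.Loc

variable {p : ℕ} [hp : Fact p.Prime] {k : Type} [Field k] {X : PF p k} (C : CFO X)

/-- multiplication by a function on the base -/
def mulH {T : FP p k} (x : X.obj T) (c : T.K) :
    Cs.Hom (C.loc T x).toCF.cos (C.loc T x).toCF.cos where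
  app n :=
    { toFun := fun g => ⟨fun S z => z.1.1.f c * g.1 S z, fun S S' φ z => by
        show φ.f (z.1.1.f c) * g.1 S' _ = φ.f (z.1.1.f c * g.1 S z)
        rw [map_mul, g.2.1 S S' φ z], fun S z hz => by
        show _ * g.1 S z = 0
        rw [g.2.2 S z hz, mul_zero]⟩
      map_add' := fun _ _ => Subtype.ext (funext fun _ => funext fun _ => mul_add _ _ _)
      map_smul' := fun _ _ => Subtype.ext (funext fun _ => funext fun _ => mul_smul_comm _ _ _) }
  nat _ _ := rfl

section mul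

variable {C} {T : FP p k} {x : X.obj T} {n : ℕ}

theorem mulH_mul (c c' : T.K) (g : (C.loc T x).toCF.Fn n) :
    (mulH C x c).app n ((mulH C x c').app n g) = (mulH C x (c * c')).app n g :=
  Subtype.ext (funext fun S => funext fun z => by
    show z.1.1.f c * (z.1.1.f c' * g.1 S z) = z.1.1.f (c * c') * g.1 S z
    rw [map_mul, mul_assoc])

theorem mulH_one (g : (C.loc T x).toCF.Fn n) : (mulH C x 1).app n g = g :=
  Subtype.ext (funext fun S => funext fun z => by
    show z.1.1.f 1 * g.1 S z = g.1 S z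
    rw [map_one, one_mul])

theorem mulH_mem {c : T.K} {s t u : ℝ} (hc : c ∈ T.F.F s) {g : (C.loc T x).toCF.Fn n}
    (hg : g ∈ ((C.loc T x).toCF.step t).S n) (h : s + t ≤ u) :
    (mulH C x c).app n g ∈ ((C.loc T x).toCF.step u).S n :=
  fun S z => S.F.mul_le (z.1.1.mem _ _ hc) (hg S z) h

theorem mulH_bd {c : T.K} {s t u : ℝ} (hc : c ∈ T.F.F s) (h : s + t ≤ u) :
    ∀ {n : ℕ} {g : (C.loc T x).toCF.Fn n}, g ∈ ((C.loc T x).toCF.step t).bd n →
      (mulH C x c).app n g ∈ ((C.loc T x).toCF.step u).bd n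
  | 0, g, hg => by rw [(Submodule.mem_bot k).1 hg, map_zero]; exact zero_mem _
  | n + 1, _, ⟨y, hy, rfl⟩ => ⟨_, mulH_mem hc hy h, ((mulH C x c).map_d n y).symm⟩

end mul

/-- the map to the configurations over a deeper base -/
def fw {T T' : FP p k} (x : X.obj T) (ψ : T.Hom T') :
    (C.loc T' (X.map ψ x)).toCF.Map (C.loc T x).toCF where
  f z := ⟨(z.1.1.comp ψ, z.1.2), z.2.trans (X.map_comp _ _ _).symm⟩
  map _ _ := rfl
  res _ _ := rfl
  full _ h := h

/-- the map on the steps zero -/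
def zh {T T' : FP p k} (φ : T.Hom T') : T.F.zero →+* T'.F.zero :=
  φ.r.restrict _ _ fun y hy => φ.mem 0 y hy

/-- the constants -/
def kz (T : FP p k) : k →+* T.F.zero := (algebraMap k T.K).codRestrict _ T.k0

variable {C} {T : FP p k} {x : X.obj T} {ι : ℕ → Type}
  (R : ∀ n, ((C.loc T x).toCF.nf n).MRep (ι n))

/-- the universal points -/
def up (n : ℕ) (i : ι n) : ((C.loc T x).Z n).obj ((R n).U i) := ((R n).u i).1

theorem cases_pt {n : ℕ} {S : FP p k} (z : ((C.loc T x).Z n).obj S) : (C.loc T x).Full z ∨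
    ∃ (i : ι n) (α : ((R n).U i).Hom S), z = ((C.loc T x).Z n).map α (up R n i) := by
  by_cases h : (C.loc T x).Full z
  · exact .inl h
  · obtain ⟨a, ha⟩ := ((R n).lift S ⟨z, h⟩).exists
    exact .inr ⟨a.1, a.2, (congrArg Subtype.val ha).symm⟩

open Classical in
/-- the function with given values at the universal points -/
def extR {n : ℕ} (q : ∀ i, ((R n).U i).K) (S : FP p k) (z : ((C.loc T x).Z n).obj S) : S.K :=
  if h : (C.loc T x).Full z then 0 else
    (fun a : Σ i, ((R n).U i).Hom S => a.2.f (q a.1)) ((R n).lift S ⟨z, h⟩).exists.choose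

theorem extR_full {n : ℕ} (q : ∀ i, ((R n).U i).K) {S : FP p k} {z : ((C.loc T x).Z n).obj S}
    (h : (C.loc T x).Full z) : extR R q S z = 0 := dif_pos h

theorem extR_pt {n : ℕ} (q : ∀ i, ((R n).U i).K) {S : FP p k} (i : ι n) (α : ((R n).U i).Hom S) :
    extR R q S (((C.loc T x).Z n).map α (up R n i)) = α.f (q i) := by
  have h : ¬(C.loc T x).Full (((C.loc T x).Z n).map α (up R n i)) := fun h =>
    ((R n).u i).2 (((C.loc T x).full_map α _).1 h)
  have e := ((R n).lift S ⟨_, h⟩).unique ((R n).lift S ⟨_, h⟩).exists.choose_spec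
    (y₂ := ⟨i, α⟩) rfl
  rw [extR, dif_neg h, e]

theorem fn_ext {n : ℕ} {g g' : (C.loc T x).toCF.Fn n}
    (h : ∀ i, g.1 _ (up R n i) = g'.1 _ (up R n i)) : g = g' :=
  Subtype.ext (funext fun S => funext fun z => by
    rcases cases_pt R z with hz | ⟨i, α, rfl⟩
    · rw [g.2.2 S z hz, g'.2.2 S z hz]
    · rw [g.2.1, g'.2.1, h])

/-- the integral functions on one piece -/
def QI (n : ℕ) (i : ι n) : Type := ((R n).U i).F.zero

instance (n : ℕ) (i : ι n) : CommRing (QI R n i) := inferInstanceAs (CommRing ((R n).U i).F.zero)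

instance (n : ℕ) (i : ι n) : Pf p (QI R n i) := pfZero _

instance (n : ℕ) (i : ι n) : Algebra T.F.zero (QI R n i) := (zh (up R n i).1.1).toAlgebra

/-- integral functions as natural functions -/
def ex {n : ℕ} (q : ∀ i, QI R n i) : (C.loc T x).toCF.Fn n :=
  ⟨extR R fun i => (q i).1, fun S S' φ z => by
    rcases cases_pt R z with hz | ⟨i, α, rfl⟩
    · rw [extR_full R _ hz, extR_full R _ (((C.loc T x).full_map φ z).2 hz), map_zero]
    · rw [← PF.map_comp, extR_pt, extR_pt]
      rfl, fun _ _ hz => extR_full R _ hz⟩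

theorem ex_pt {n : ℕ} (q : ∀ i, QI R n i) {S : FP p k} (i : ι n) (α : ((R n).U i).Hom S) :
    (ex R q).1 S (((C.loc T x).Z n).map α (up R n i)) = α.f (q i).1 :=
  extR_pt R (fun i => (q i).1) i α

theorem ex_up {n : ℕ} (q : ∀ i, QI R n i) (i : ι n) : (ex R q).1 _ (up R n i) = (q i).1 := by
  have := ex_pt R q i (.id _)
  rwa [PF.map_id] at this

theorem ex_mem {n : ℕ} (q : ∀ i, QI R n i) : ex R q ∈ ((C.loc T x).toCF.step 0).S n :=
  fun S z => by
  rcases cases_pt R z with hz | ⟨i, α, rfl⟩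
  · rw [(ex R q).2.2 S z hz]
    exact zero_mem _
  · rw [ex_pt]
    exact α.mem _ _ (q i).2

theorem ex_inj {n : ℕ} {q q' : ∀ i, QI R n i} (h : ex R q = ex R q') : q = q' :=
  funext fun i => Subtype.ext (by rw [← ex_up, ← ex_up, h])

theorem ex_add {n : ℕ} (q q' : ∀ i, QI R n i) : ex R (q + q') = ex R q + ex R q' :=
  fn_ext R fun i => by
    show _ = (ex R q).1 _ (up R n i) + (ex R q').1 _ (up R n i)
    rw [ex_up, ex_up, ex_up]
    rfl

theorem ex_zero {n : ℕ} : ex R (0 : ∀ i, QI R n i) = 0 := fn_ext R fun i => ex_up R _ i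

theorem ex_smul {n : ℕ} (c : T.F.zero) (q : ∀ i, QI R n i) :
    ex R (c • q) = (mulH C x c.1).app n (ex R q) :=
  fn_ext R fun i => by
    show _ = (up R n i).1.1.f c.1 * (ex R q).1 _ (up R n i)
    rw [ex_up, ex_up]
    rfl

/-- the differential -/
def dq (n : ℕ) (q : ∀ i, QI R n i) : ∀ i, QI R (n + 1) i := fun i =>
  ⟨((C.loc T x).toCF.cos.d n (ex R q)).1 _ (up R (n + 1) i), by
    have h := (((C.loc T x).toCF.step 0).cos.d n ⟨_, ex_mem R q⟩).2
    rw [Cs.Sub.coe_d] at h
    exact h _ _⟩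

theorem ex_dq (n : ℕ) (q : ∀ i, QI R n i) :
    ex R (dq R n q) = (C.loc T x).toCF.cos.d n (ex R q) := fn_ext R fun i => ex_up R _ i

/-- the complex of rings -/
@[reducible] def cx : Cx p T.F.zero where
  Q n := ∀ i, QI R n i
  d n :=
    { toFun := dq R n
      map_add' := fun q q' => ex_inj R (by rw [ex_add, ex_dq, ex_dq, ex_dq, ex_add, map_add])
      map_smul' := fun c q => ex_inj R (by
        rw [RingHom.id_apply, ex_smul, ex_dq, ex_dq, ex_smul, Cs.Hom.map_d]) }
  dd n q := ex_inj R (by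
    show ex R (dq R _ (dq R n q)) = _
    rw [ex_dq, ex_dq, Cs.dd, ex_zero])

end P261.Loc
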